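import Vale.Agent.P237.Petty.Centre.Slope
import Vale.Agent.P237.Petty.Ident.Main
import Vale.Agent.P237.Petty.Ident.Obstacle

/-!
# P237: from the pointwise inequality to the linear functional

Along the transport the calibrated integrand `P`, times the rate, is the slope free field plus the
obstacle, minus the value at the circle and plus the derivative of the null functions. So a
pointwise sign of `P` and the square of the calibration gives the sign of the linear functional.
Only continuity of the null functions is used at the end of the interval.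
-/

namespace Vale.Agent.P237.Petty.Centre

open MeasureTheory Set Filter Topology intervalIntegral
open Ident (field gain tangentT potT potK rate weight obsGain half b0 coefPi coefJ circleValue
  muMin)

variable {p m : ℕ} {b M1 M2 C s S z : ℝ} {g σ : ℝ → ℝ}

theorem hasDerivAt_hd (hm : 4 ≤ m) (hs : s ^ 2 < 1) :
    HasDerivAt (hd m M1 M2) (hd' m M1 M2 s) s := by
  obtain ⟨k, rfl⟩ : ∃ k, m = k + 4 := ⟨m - 4, by omega⟩
  have h1 : HasDerivAt (fun y : ℝ => 1 - y ^ 2) (-2 * s) s := by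
    simpa using (hasDerivAt_pow 2 s).const_sub 1
  have h3 : HasDerivAt (fun y : ℝ => 1 - 3 * y ^ 2) (-6 * s) s := by
    refine (((hasDerivAt_pow 2 s).const_mul 3).const_sub 1).congr_deriv ?_
    push_cast
    ring
  have hG := (((h1.const_mul (2 * M1)).mul
    ((h3.const_mul (((k + 4 : ℕ) : ℝ) - 2)⁻¹).const_sub 1)).add
      ((h1.pow 2).const_mul (2 * M2))).sub (hasDerivAt_cs hs)
  have h := ((hasDerivAt_cs_pow hs k).const_mul (((k + 4 : ℕ) : ℝ))⁻¹).mul hG
  refine (h.congr_of_eventuallyEq (Filter.Eventually.of_forall fun y => ?_)).congr_deriv ?_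
  · simp [hd, Gd]
  · simp only [hd', Gd, Pi.mul_apply, Pi.add_apply, Pi.sub_apply,
      Pi.pow_apply, show k + 4 - 4 = k from rfl, Nat.reduceSub, pow_one,
      show cs s ^ (k + 2) = cs s ^ k * (1 - s ^ 2) by rw [pow_add, cs_sq hs.le]]
    push_cast
    ring

theorem hasDerivAt_kap (hs : s ^ 2 < 1) : HasDerivAt (kap m C) (kap' m C s) s := by
  have hp := (cs_pos hs).ne'
  have h1 := ((hasDerivAt_cs hs).pow m).mul
    ((((hasDerivAt_id s).const_mul √(m : ℝ)).neg).exp)
  refine ((h1.const_mul (C * ((m : ℝ)⁻¹ * √(m : ℝ)⁻¹))).neg).congr_deriv ?_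
  have hpow : (m : ℝ) * cs s ^ (m - 1) * cs s = (m : ℝ) * cs s ^ m := by
    rcases Nat.eq_zero_or_pos m with rfl | hm
    · simp
    · rw [mul_assoc, ← pow_succ, Nat.sub_add_cancel hm]
  have e : (m : ℝ) * cs s ^ (m - 1) * (-s / cs s) = -(cs s ^ m * ((m : ℝ) * s / cs s ^ 2)) := by
    field_simp
    linear_combination (-s) * hpow
  simp only [kap', id_eq, ← cs_sq hs.le, Pi.pow_apply, Pi.neg_apply, e]
  ring

theorem hasDerivAt_sat (d : ℝ) : HasDerivAt (sat m) (sat' m d) d := by
  have hp : (0 : ℝ) < 1 + (m : ℝ) * d ^ 2 := by positivity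
  refine ((hasDerivAt_pow 2 d).div (((hasDerivAt_pow 2 d).const_mul (m : ℝ)).const_add 1)
    hp.ne').congr_deriv ?_
  simp only [sat']
  push_cast
  field_simp
  ring

theorem W0_primitive (x : ℝ) : HasDerivAt (fun y => ∫ t in (0 : ℝ)..y, W0 m b t) (W0 m b x) x :=
  (W0_continuous.integral_hasStrictDerivAt 0 x).hasDerivAt

theorem fW_primitive (x : ℝ) : HasDerivAt (fun y => ∫ t in (0 : ℝ)..y, fW m b t) (fW m b x) x :=
  (fW_continuous.integral_hasStrictDerivAt 0 x).hasDerivAt

/-- The derivative of both null functions along a curve. -/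
theorem hasDerivAt_nulls (hm : 4 ≤ m) {u : ℝ → ℝ} {t r : ℝ} (hu : HasDerivAt u r t)
    (hs : u t ^ 2 < 1) :
    HasDerivAt (fun x => null0 m b M1 M2 (u x) x + null1 m C (u x) x)
      (r * (null0s m b M1 M2 (u t) t + kap' m C (u t) * sat m (t - u t) -
          kap m C (u t) * sat' m (t - u t)) +
        (null0S m b M1 M2 (u t) t + kap m C (u t) * sat' m (t - u t))) t := by
  have hid := hasDerivAt_id t
  have hI := (W0_primitive (m := m) (b := b) t).sub
    ((W0_primitive (m := m) (b := b) (u t)).comp t hu)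
  have hJ := (fW_primitive (m := m) (b := b) t).sub
    ((fW_primitive (m := m) (b := b) (u t)).comp t hu)
  have h0 := ((((hasDerivAt_hd (M1 := M1) (M2 := M2) hm hs).comp t hu).mul (hid.sub hu)).sub
    (hI.const_mul 2)).add
    ((((hasDerivAt_cs hs).comp t hu).const_mul (2 * (1 - (m : ℝ)⁻¹))).mul hJ)
  have h1 := ((hasDerivAt_kap (m := m) (C := C) hs).comp t hu).mul
    ((hasDerivAt_sat (m := m) (t - u t)).comp t (hid.sub hu))
  refine ((h0.add h1).congr_of_eventuallyEq (Filter.Eventually.of_forall fun x => ?_)).congr_deriv ?_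
  · simp [null0, null1]
  · have hint : (∫ x in u t..t, fW m b x) =
        (∫ x in (0 : ℝ)..t, fW m b x) - ∫ x in (0 : ℝ)..u t, fW m b x :=
      (intervalIntegral.integral_interval_sub_left (fW_continuous.intervalIntegrable _ _)
        (fW_continuous.intervalIntegrable _ _)).symm
    simp only [null0s, null0S, W0, hint, Function.comp_apply, Pi.sub_apply, id_eq]
    ring

theorem continuous_hd : Continuous (hd m M1 M2) := by
  unfold hd Gd
  have := cs_continuous
  fun_prop

theorem continuous_kap : Continuous (kap m C) := by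
  unfold kap
  have := cs_continuous
  fun_prop

theorem continuous_sat : Continuous (sat m) := by
  unfold sat
  exact (continuous_id.pow 2).div₀ (by fun_prop) fun d => by positivity

theorem continuousOn_nulls {u : ℝ → ℝ} {A : Set ℝ} (hu : ContinuousOn u A) :
    ContinuousOn (fun x => null0 m b M1 M2 (u x) x + null1 m C (u x) x) A := by
  have hI : Continuous fun y => ∫ t in (0 : ℝ)..y, W0 m b t :=
    continuous_iff_continuousAt.2 fun x => (W0_primitive x).continuousAt
  have hJ : Continuous fun y => ∫ t in (0 : ℝ)..y, fW m b t :=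
    continuous_iff_continuousAt.2 fun x => (fW_primitive x).continuousAt
  have hid : ContinuousOn (fun x : ℝ => x) A := continuousOn_id
  unfold null0 null1
  exact ((((continuous_hd.comp_continuousOn hu).mul (hid.sub hu)).sub
    (continuousOn_const.mul ((hI.comp_continuousOn hid).sub (hI.comp_continuousOn hu)))).add
    ((continuousOn_const.mul (cs_continuous.comp_continuousOn hu)).mul
      ((hJ.comp_continuousOn hid).sub (hJ.comp_continuousOn hu)))).add
    ((continuous_kap.comp_continuousOn hu).mul (continuous_sat.comp_continuousOn (hid.sub hu)))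

theorem nulls_self (x : ℝ) : null0 m b M1 M2 x x + null1 m C x x = 0 := by
  simp [null0, null1, sat]

theorem weight_eq (p : ℕ) (t : ℝ) : weight p t = 2 * fW (p + 1) (b0 p) t := by
  simp only [weight, fW, wPoly, cs, show p + 1 - 2 = p - 1 from rfl]
  push_cast
  ring

theorem Q_circle (hp : 2 ≤ p) (hs : s ^ 2 < 1) :
    Q (p + 1) b M1 M2 s s 1 = field p M1 M2 s 1 s (cs s) := by
  obtain ⟨j, rfl⟩ : ∃ j, p = j + 2 := ⟨p - 2, by omega⟩
  have hj : (0 : ℝ) < (j : ℝ) + 1 := by positivity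
  rw [Q, one_pow, one_mul, div_self (cs_pos hs).ne', ← cs_sq hs.le]
  simp only [field, tangentT, potT, potK, coA, show j + 2 + 1 - 2 = j + 1 from rfl,
    show j + 2 - 1 = j + 1 from rfl, show ((j + 2 : ℕ) : ℝ) - 1 = (j : ℝ) + 1 by push_cast; ring,
    show ((j + 2 + 1 : ℕ) : ℝ) - 2 = (j : ℝ) + 1 by push_cast; ring]
  push_cast
  field_simp
  ring

/-- The integrand of `Q` along the transport is the field plus the stationary obstacle. -/
theorem rate_mul_Q (hp : 2 ≤ p) (hs : s ^ 2 < 1) (hS : S ^ 2 < 1) {a : ℝ} (ha : 0 < a) :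
    a ^ (p + 1) / cs s ^ (p + 1) * Q (p + 1) b M1 M2 s S (cs s / a) =
      field p M1 M2 s (a ^ (p + 1) / cs s ^ (p + 1)) S a +
        2 * fW (p + 1) b S * (cs S - a) := by
  obtain ⟨j, rfl⟩ : ∃ j, p = j + 2 := ⟨p - 2, by omega⟩
  have hj : (0 : ℝ) < (j : ℝ) + 1 := by positivity
  have hc := (cs_pos hs).ne'
  have hcS := (cs_pos hS).ne'
  have ha' := ha.ne'
  rw [Q, W0, ← cs_sq hs.le]
  simp only [field, tangentT, potT, potK, coA, show j + 2 + 1 - 2 = j + 1 from rfl,
    show j + 2 - 1 = j + 1 from rfl, show ((j + 2 : ℕ) : ℝ) - 1 = (j : ℝ) + 1 by push_cast; ring,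
    show ((j + 2 + 1 : ℕ) : ℝ) - 2 = (j : ℝ) + 1 by push_cast; ring, div_pow]
  push_cast
  field_simp
  ring

/-- `P` along the transport, with the derivative of the null functions. -/
theorem rate_mul_P (hp : 2 ≤ p) (hs : s ^ 2 < 1) (hS : S ^ 2 < 1) {a : ℝ} (ha : 0 < a) :
    a ^ (p + 1) / cs s ^ (p + 1) * P (p + 1) b M1 M2 C s S (cs s / a) =
      field p M1 M2 s (a ^ (p + 1) / cs s ^ (p + 1)) S a + 2 * fW (p + 1) b S * (cs S - a) -
        a ^ (p + 1) / cs s ^ (p + 1) * field p M1 M2 s 1 s (cs s) +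
        (a ^ (p + 1) / cs s ^ (p + 1) * (null0s (p + 1) b M1 M2 s S +
            kap' (p + 1) C s * sat (p + 1) (S - s) - kap (p + 1) C s * sat' (p + 1) (S - s)) +
          (null0S (p + 1) b M1 M2 s S + kap (p + 1) C s * sat' (p + 1) (S - s))) := by
  have h1 : a ^ (p + 1) / cs s ^ (p + 1) * (cs s / a) ^ (p + 1) = 1 := by
    rw [div_pow]
    have := (cs_pos hs).ne'
    field_simp
  rw [P, ← rate_mul_Q hp hs hS ha, Q_circle hp hs]
  linear_combination (null0S (p + 1) b M1 M2 s S + kap (p + 1) C s * sat' (p + 1) (S - s)) * h1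

/-- The budget of a mixed obstacle, with the exact total and the square of the deficit. -/
theorem budget_exact (hg : Regular g) {lam : ℝ} (hl0 : 0 < lam) (hl : lam ≤ 1)
    (hge : ∀ t ∈ Icc (-1 : ℝ) 1, lam * √(1 - t ^ 2) ≤ g t) {w v : ℝ → ℝ}
    (hw : Continuous w) (hv : Continuous v) (hw0 : ∀ t ∈ Icc (0 : ℝ) 1, 0 ≤ w t)
    (hv0 : ∀ t ∈ Icc (0 : ℝ) 1, 0 ≤ v t) :
    IntervalIntegrable
        (fun t => w t * (√(1 - t ^ 2) - g t) + v t * (1 - t ^ 2 - g t ^ 2) + v t * obsGain g t +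
          v t * max (√(1 - t ^ 2) - g t) 0 ^ 2)
        volume 0 1 ∧
      (∫ t in (0 : ℝ)..1,
          (w t * (√(1 - t ^ 2) - g t) + v t * (1 - t ^ 2 - g t ^ 2) + v t * obsGain g t +
            v t * max (√(1 - t ^ 2) - g t) 0 ^ 2)) ≤
        (∫ t in (0 : ℝ)..1, w t * √(1 - t ^ 2) + 2 * (v t * (1 - t ^ 2))) * (1 - lam) := by
  have hgc : ContinuousOn g (Icc 0 1) := hg.cont.mono (Icc_subset_Icc (by norm_num) le_rfl)
  have hobs : IntervalIntegrable
      (fun t => w t * (√(1 - t ^ 2) - g t) + v t * (1 - t ^ 2 - g t ^ 2) + v t * obsGain g t +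
        v t * max (√(1 - t ^ 2) - g t) 0 ^ 2)
      volume 0 1 :=
    ((ContinuousOn.intervalIntegrable (by rw [uIcc_of_le zero_le_one]; fun_prop)).add
      ((Ident.integrable_obsGain hg).continuousOn_mul hv.continuousOn)).add
      (ContinuousOn.intervalIntegrable (by rw [uIcc_of_le zero_le_one]; fun_prop))
  refine ⟨hobs, ?_⟩
  rw [← intervalIntegral.integral_mul_const]
  refine intervalIntegral.integral_mono_ae_restrict zero_le_one hobs
    (Continuous.intervalIntegrable (by fun_prop) _ _) ?_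
  filter_upwards [ae_restrict_mem measurableSet_Icc,
    ae_restrict_of_ae (Measure.ae_ne volume (1 : ℝ))] with t ht h1
  have hto : t ∈ Ioo (-1 : ℝ) 1 := ⟨by linarith [ht.1], lt_of_le_of_ne ht.2 h1⟩
  have a1 := hge t (Ioo_subset_Icc_self hto)
  have a2 := Ident.sq_le_tangent hg hl0 hge hto
  have a3 : 0 ≤ 1 - t ^ 2 := by nlinarith [hto.1, hto.2]
  have a4 : (1 - t ^ 2 - g t ^ 2) + obsGain g t ≤ (1 - t ^ 2) * (1 - lam ^ 2) := by
    rw [obsGain, ← Ident.obstacle_split t (g t) (slopeR g t)]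
    refine mul_le_mul_of_nonneg_left ?_ a3
    rw [icept] at a2
    linarith
  have a5 : √(1 - t ^ 2) - g t ≤ √(1 - t ^ 2) * (1 - lam) := by linarith
  have a6 : max (√(1 - t ^ 2) - g t) 0 ^ 2 ≤ (1 - t ^ 2) * (1 - lam) ^ 2 := by
    refine (pow_le_pow_left₀ (le_max_right _ _)
      (max_le a5 (mul_nonneg (Real.sqrt_nonneg _) (sub_nonneg.2 hl))) 2).trans (le_of_eq ?_)
    rw [mul_pow, Real.sq_sqrt a3]
  have := mul_le_mul_of_nonneg_left a5 (hw0 t ht)
  have := mul_le_mul_of_nonneg_left a4 (hv0 t ht)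
  have := mul_le_mul_of_nonneg_left a6 (hv0 t ht)
  linarith

/-- A sign of `P` plus the square, pointwise along the transport, gives the linear functional.
The field `κ`, the weights `w`, `v` and the null `ψ` are free, as long as the total weight stays
nonnegative; `δ` is the unused part of the budget. -/
theorem linearForm_ge_of_pointwise (hg : Regular g) (hp : 3 ≤ p) (hσ : Transport p g σ)
    {mu nu lam δ C : ℝ} (hl0 : 0 < lam) (hl : lam ≤ 1)
    (hge : ∀ t ∈ Icc (-1 : ℝ) 1, lam * √(1 - t ^ 2) ≤ g t) {w v : ℝ → ℝ}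
    (hw : Continuous w) (hv : Continuous v)
    (hw0 : ∀ t ∈ Icc (0 : ℝ) 1, 0 ≤ weight p t + w t)
    (hv0 : ∀ t ∈ Icc (0 : ℝ) 1, 0 ≤ v t)
    (htot : (∫ t in (0 : ℝ)..1, w t * √(1 - t ^ 2) + 2 * (v t * (1 - t ^ 2))) + δ ≤
      (mu - muMin p) * half p / ((p : ℝ) + 2))
    {κ κ' : ℝ → ℝ} (hκc : ContinuousOn κ (Icc 0 1)) (hκ0 : κ 0 = 0) (hκ1 : κ 1 = 1)
    (hκd : ∀ t ∈ Ioo (0 : ℝ) 1, HasDerivWithinAt κ (κ' t) (Ioi t) t)
    (hκi : IntervalIntegrable κ' volume 0 1)
    {ψ ψ' : ℝ → ℝ} (hψc : ContinuousOn ψ (Icc 0 1)) (hψ : ψ 0 = ψ 1)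
    (hψd : ∀ t ∈ Ioo (0 : ℝ) 1, HasDerivWithinAt ψ (ψ' t) (Ioi t) t)
    (hpos : ∀ t ∈ Ioo (0 : ℝ) 1,
      0 ≤ rate p g σ t * P (p + 1) (b0 p) (coefPi p mu) (coefJ p nu) C (σ t) t (cs (σ t) / g t) +
        (field p (coefPi p mu) (coefJ p nu) (κ t) (κ' t) t (g t) -
          field p (coefPi p mu) (coefJ p nu) (σ t) (rate p g σ t) t (g t)) +
        gain p (coefPi p mu) (coefJ p nu) (κ t) t (g t) (-slopeR g t) +
        (w t * (√(1 - t ^ 2) - g t) + v t * (1 - t ^ 2 - g t ^ 2) + v t * obsGain g t +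
          v t * max (√(1 - t ^ 2) - g t) 0 ^ 2) + ψ' t) :
    δ * (1 - lam) ≤ half p / ((p : ℝ) + 1) * linearForm p mu nu g lam := by
  have hp2 : 2 ≤ p := by omega
  have hLF := Ident.linearForm_eq hg p mu nu lam
  obtain ⟨hi, he⟩ := Ident.identity hg hp2 (coefPi p mu) (coefJ p nu) hκc hκ0 hκ1 hκd hκi
  set M1 := coefPi p mu
  set M2 := coefJ p nu
  set φ := fun x => field p M1 M2 x 1 x (cs x) with hφ
  have hφc : Continuous φ := by
    simp only [hφ, field, tangentT, potT, potK]
    have := cs_continuous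
    fun_prop
  have hri : IntervalIntegrable (fun t => rate p g σ t * φ (σ t)) volume 0 1 :=
    (hσ.integrable_rate hg).mul_continuousOn (by
      rw [uIcc_of_le zero_le_one]; exact hφc.comp_continuousOn hσ.cont)
  have hrv : ∫ t in (0 : ℝ)..1, rate p g σ t * φ (σ t) = circleValue p mu nu := by
    rw [show (fun t => rate p g σ t * φ (σ t)) =
      fun t => g t ^ (p + 1) / arc (σ t) ^ (p + 1) * φ (σ t) from rfl, hσ.integral_rate_mul hg hφc]
    exact Ident.integral_field_circle hp2 mu nu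
  obtain ⟨hwi, hwb⟩ := budget_exact (w := fun t => weight p t + w t) hg hl0 hl hge
    ((Ident.continuous_weight p).add hw) hv hw0 hv0
  have hsplit : (∫ t in (0 : ℝ)..1, (weight p t + w t) * √(1 - t ^ 2) + 2 * (v t * (1 - t ^ 2))) =
      muMin p * half p / ((p : ℝ) + 2) +
        ∫ t in (0 : ℝ)..1, w t * √(1 - t ^ 2) + 2 * (v t * (1 - t ^ 2)) := by
    have i1 : IntervalIntegrable (fun t => weight p t * √(1 - t ^ 2)) volume 0 1 :=
      ((Ident.continuous_weight p).mul (by fun_prop)).intervalIntegrable _ _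
    have i2 : IntervalIntegrable (fun t => w t * √(1 - t ^ 2) + 2 * (v t * (1 - t ^ 2))) volume 0 1 :=
      Continuous.intervalIntegrable (by fun_prop) _ _
    rw [← Ident.integral_weight (by omega : 1 ≤ p), ← intervalIntegral.integral_add i1 i2]
    exact intervalIntegral.integral_congr fun t _ => by ring
  rw [hsplit] at hwb
  set F := fun t => field p M1 M2 (κ t) (κ' t) t (g t) +
      gain p M1 M2 (κ t) t (g t) (-slopeR g t) - rate p g σ t * φ (σ t) +
      ((weight p t + w t) * (√(1 - t ^ 2) - g t) + v t * (1 - t ^ 2 - g t ^ 2) +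
        v t * obsGain g t + v t * max (√(1 - t ^ 2) - g t) 0 ^ 2) with hF
  have hFi : IntervalIntegrable F volume 0 1 := (hi.sub hri).add hwi
  set Ψ := fun x => null0 (p + 1) (b0 p) M1 M2 (σ x) x + null1 (p + 1) C (σ x) x + ψ x with hΨ
  have hder : ∀ t ∈ Ioo (0 : ℝ) 1, HasDerivWithinAt (fun x => -Ψ x)
      (-(rate p g σ t * (null0s (p + 1) (b0 p) M1 M2 (σ t) t +
          kap' (p + 1) C (σ t) * sat (p + 1) (t - σ t) -
          kap (p + 1) C (σ t) * sat' (p + 1) (t - σ t)) +
        (null0S (p + 1) (b0 p) M1 M2 (σ t) t +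
          kap (p + 1) C (σ t) * sat' (p + 1) (t - σ t)) + ψ' t)) (Ioi t) t := fun t ht => by
    have hst := hσ.mem_Ioo t ht
    exact (((hasDerivAt_nulls (by omega) (hσ.deriv t ht)
      (by nlinarith [hst.1, hst.2])).hasDerivWithinAt).add (hψd t ht)).neg
  have hcont : ContinuousOn (fun x => -Ψ x) (Icc 0 1) :=
    ((continuousOn_nulls hσ.cont).add hψc).neg
  have hkey := sub_le_integral_of_hasDeriv_right_of_le zero_le_one hcont hder
    ((intervalIntegrable_iff_integrableOn_Icc_of_le zero_le_one).1 hFi) fun t ht => by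
      have hst := hσ.mem_Ioo t ht
      have h := hpos t ht
      have e := rate_mul_P (b := b0 p) (M1 := M1) (M2 := M2) (C := C) hp2
        (s := σ t) (S := t) (by nlinarith [hst.1, hst.2]) (by nlinarith [ht.1, ht.2])
        (hg.pos_of_lt ⟨ht.1.le, ht.2⟩)
      have er : rate p g σ t = g t ^ (p + 1) / cs (σ t) ^ (p + 1) := rfl
      rw [← er] at e
      simp only [hF, hφ, weight_eq]
      rw [e] at h
      have : √(1 - t ^ 2) = cs t := rfl
      rw [this] at h ⊢
      linarith
  have hz : -Ψ 1 - -Ψ 0 = 0 := by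
    simp only [hΨ, hσ.zero, hσ.one, nulls_self, hψ]
    ring
  rw [hz] at hkey
  have hsum : ∫ t in (0 : ℝ)..1, F t = (∫ t in (0 : ℝ)..1, field p M1 M2 (κ t) (κ' t) t (g t) +
        gain p M1 M2 (κ t) t (g t) (-slopeR g t)) - circleValue p mu nu +
      ∫ t in (0 : ℝ)..1, ((weight p t + w t) * (√(1 - t ^ 2) - g t) + v t * (1 - t ^ 2 - g t ^ 2) +
        v t * obsGain g t + v t * max (√(1 - t ^ 2) - g t) 0 ^ 2) := by
    rw [← hrv, hF, intervalIntegral.integral_add (hi.sub hri) hwi,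
      intervalIntegral.integral_sub hi hri]
  have h3 := mul_le_mul_of_nonneg_right htot (sub_nonneg.2 hl)
  rw [sub_mul, sub_div, sub_mul, add_mul] at h3
  linarith

end Vale.Agent.P237.Petty.Centre
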