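import Vale.Agent.P237.Petty.Centre.Bridge
import Vale.Agent.P237.Petty.Tail.Field

/-!
# P237: from a sign of the tail integrand to the linear functional

The slope field, the second part of the obstacle and the null of the displacement satisfy the
hypotheses of the bridge, so a pointwise sign of `Tail.total` gives the linear functional.
-/

namespace Vale.Agent.P237.Petty.Centre

open MeasureTheory Set Filter Topology intervalIntegral
open Ident (field gain tangentT potT potK rate weight obsGain half b0 coefPi coefJ muMin)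
open Tail (continuous_sqp continuous_step hasDerivAt_sqp hasDerivAt_step step_mem sqp sqp' step step' cut edgeField edgeField' slopeField slopeField' far cliffArg cliffField cliffField' vSurf fieldDs vObs slopePart null2 null2s null2S
  total)

variable {p m : ℕ} {b M1 M2 C a A A' kap0 η : ℝ} {g σ : ℝ → ℝ}

theorem continuous_step' : Continuous step' := by unfold Tail.step' Tail.sqp' Tail.sqp; fun_prop

/-- The derivative of the step, also times its argument, is bounded by `32`. -/
theorem abs_step'_le (x : ℝ) : |step' x| ≤ 32 ∧ |x * step' x| ≤ 32 := by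
  have h := Tail.step'_bounds x
  rcases le_total x (7 / 8) with h1 | h1
  · simp [(Tail.step_of_le h1).2]
  rcases le_total 1 x with h2 | h2
  · simp [(Tail.step_of_one_le h2).2]
  rw [abs_of_nonneg h.1, abs_of_nonneg (mul_nonneg (by linarith) h.1)]
  exact ⟨h.2, (mul_le_of_le_one_left h.1 h2).trans h.2⟩

/-- The linear part of the obstacle stays nonnegative. -/
theorem vObs_le (hm : 4 ≤ m) (hb : 89 / 100 ≤ b) (hb1 : b ≤ 1) (hk : kap0 ≤ 1 / 8) (t : ℝ) :
    cs t * vObs m kap0 t ≤ fW m b t := by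
  obtain ⟨k, rfl⟩ : ∃ k, m = k + 4 := ⟨m - 4, by omega⟩
  have hu : 0 ≤ cs t := Real.sqrt_nonneg _
  have hf : 0 ≤ fW (k + 4) b t := fW_nonneg (by omega) (by linarith)
  rcases le_total (89 / 100) (cs t) with h | h
  · rw [vObs, Tail.sqp, max_eq_right (by linarith)]
    simpa using hf
  · have h1 : (89 / 100 - cs t) ^ 2 ≤ (cs t - b) ^ 2 := by
      rw [show (cs t - b) ^ 2 = (b - cs t) ^ 2 by ring]
      exact pow_le_pow_left₀ (by linarith) (by linarith) 2
    have h3 : b ^ 3 ≤ 1 := pow_le_one₀ (by linarith) hb1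
    have h2 : kap0 ≤ (cs t + 2 * b) / (4 * b ^ 3) := by
      refine hk.trans ?_
      rw [le_div_iff₀ (by positivity)]
      linarith
    have hk1 : (0 : ℝ) ≤ ((k + 4 : ℕ) : ℝ) - 1 := by push_cast; linarith [Nat.cast_nonneg (α := ℝ) k]
    rw [vObs, fW, wPoly, Tail.sqp, max_eq_left (by linarith), show k + 4 - 2 = k + 1 + 1 from rfl,
      show k + 4 - 3 = k + 1 from rfl, pow_succ (cs t) (k + 1)]
    calc cs t * (kap0 * (((k + 4 : ℕ) : ℝ) - 1) * cs t ^ (k + 1) * (89 / 100 - cs t) ^ 2)
        = cs t * (((k + 4 : ℕ) : ℝ) - 1) * cs t ^ (k + 1) * ((89 / 100 - cs t) ^ 2 * kap0) := by ring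
      _ ≤ cs t * (((k + 4 : ℕ) : ℝ) - 1) * cs t ^ (k + 1) *
          ((cs t - b) ^ 2 * ((cs t + 2 * b) / (4 * b ^ 3))) :=
        mul_le_mul_of_nonneg_left ((mul_le_mul_of_nonneg_left h2 (sq_nonneg _)).trans
            (mul_le_mul_of_nonneg_right h1 (div_nonneg (by linarith) (by positivity))))
          (mul_nonneg (mul_nonneg hu hk1) (pow_nonneg hu _))
      _ = _ := by ring

theorem continuous_vObs : Continuous (vObs m kap0) := by
  unfold Tail.vObs Tail.sqp
  have := cs_continuous
  fun_prop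

theorem continuousOn_null2 {u : ℝ → ℝ} {T : Set ℝ} (hu : ContinuousOn u T) :
    ContinuousOn (fun x => null2 m a A A' (u x) x) T := by
  unfold Tail.null2
  exact ((((cs_continuous.comp_continuousOn hu).pow (m - 3)).mul
    ((((continuous_sqp.comp_continuousOn (hu.sub continuousOn_const)).const_mul A |>.mul
      ((continuousOn_id.sub hu).pow 2))).add
      (((hu.pow 3).const_mul A').mul (continuous_sqp.comp_continuousOn
        ((continuousOn_id.sub hu).sub continuousOn_const)))))).neg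

theorem hasDerivAt_null2 (hm : 5 ≤ m) {u : ℝ → ℝ} {t r : ℝ} (hu : HasDerivAt u r t)
    (hs : u t ^ 2 < 1) :
    HasDerivAt (fun x => null2 m a A A' (u x) x)
      (r * null2s m a A A' (u t) t + null2S m a A A' (u t) t) t := by
  obtain ⟨k, rfl⟩ : ∃ k, m = k + 5 := ⟨m - 5, by omega⟩
  have hd := (hasDerivAt_id t).sub hu
  have h1 := (((hasDerivAt_sqp (u t - a)).comp t (hu.sub_const a)).mul (hd.pow 2)).const_mul A
  have h2 := ((hu.pow 3).const_mul A').mul
    ((hasDerivAt_sqp (t - u t - 1 / 2)).comp t (hd.sub_const (1 / 2)))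
  have h := (((hasDerivAt_cs_pow hs k).comp t hu).mul (h1.add h2)).neg
  refine (h.congr_of_eventuallyEq (Filter.Eventually.of_forall fun x => ?_)).congr_deriv ?_
  · simp only [Tail.null2, Pi.neg_apply, Pi.mul_apply, Pi.add_apply, Pi.pow_apply, Pi.sub_apply,
      Function.comp_apply, id_eq, show k + 5 - 3 = k + 2 from rfl]
    ring
  · simp only [Tail.null2s, Tail.null2S, Function.comp_apply, Pi.mul_apply, Pi.add_apply,
      Pi.sub_apply, Pi.pow_apply, id_eq, show k + 5 - 3 = k + 2 from rfl, show k + 5 - 5 = k from rfl,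
      Nat.reduceSub, pow_one]
    push_cast
    ring

/-- The edge field along the transport. -/
noncomputable def edgePath (η : ℝ) (σ : ℝ → ℝ) (t : ℝ) : ℝ := edgeField η (σ t) t

/-- Its derivative. -/
noncomputable def edgePath' (p : ℕ) (η : ℝ) (g σ : ℝ → ℝ) (t : ℝ) : ℝ :=
  rate p g σ t * cut η (σ t) t + step' ((1 - t) / ((1 - σ t) * η)) / η *
    (1 - rate p g σ t * ((1 - t) / (1 - σ t)))

theorem continuousOn_cut (hσ : Transport p g σ) (hη : 0 < η) :
    ContinuousOn (fun t => cut η (σ t) t) (Ico 0 1) := by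
  have h1 : ∀ t ∈ Ico (0 : ℝ) 1, (1 - σ t) * η ≠ 0 := fun t ht => by
    have hlt : σ t < 1 := by
      rcases ht.1.eq_or_lt with h | h
      · rw [← h, hσ.zero]; norm_num
      · exact (hσ.mem_Ioo t ⟨h, ht.2⟩).2
    exact mul_ne_zero (sub_pos.2 hlt).ne' hη.ne'
  exact continuous_step.comp_continuousOn ((continuousOn_const.sub continuousOn_id).div
    ((continuousOn_const.sub (hσ.cont.mono Ico_subset_Icc_self)).mul continuousOn_const) h1)

theorem continuousOn_edgePath (hσ : Transport p g σ) (hη : 0 < η) :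
    ContinuousOn (edgePath η σ) (Icc 0 1) := by
  intro t ht
  rcases ht.2.eq_or_lt with rfl | h
  · have h1 : edgePath η σ 1 = 1 := by simp [edgePath, Tail.edgeField, hσ.one]
    rw [ContinuousWithinAt, h1]
    have hlow : Tendsto σ (𝓝[Icc 0 1] 1) (𝓝 1) := by
      have := hσ.cont 1 ⟨zero_le_one, le_rfl⟩
      rwa [ContinuousWithinAt, hσ.one] at this
    refine tendsto_of_tendsto_of_tendsto_of_le_of_le' hlow tendsto_const_nhds ?_ ?_
    all_goals
      filter_upwards [self_mem_nhdsWithin] with x hx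
      have h2 := step_mem ((1 - x) / ((1 - σ x) * η))
      have h3 := (hσ.mem x hx).2
      simp only [edgePath, Tail.edgeField, Tail.cut]
      nlinarith [mul_nonneg h2.1 (sub_nonneg.2 h3), mul_nonneg (sub_nonneg.2 h2.2) (sub_nonneg.2 h3)]
  · have hc := continuousOn_cut (η := η) hσ hη t ⟨ht.1, h⟩
    have hs := (hσ.cont.mono Ico_subset_Icc_self) t ⟨ht.1, h⟩
    have hh : ContinuousWithinAt (edgePath η σ) (Ico 0 1) t :=
      (hc.mul hs).add (continuousWithinAt_const.sub hc)
    refine hh.mono_of_mem_nhdsWithin ?_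
    filter_upwards [self_mem_nhdsWithin, nhdsWithin_le_nhds (Iio_mem_nhds h)] with x hx hx1
    exact ⟨hx.1, hx1⟩

theorem hasDerivAt_edgePath (hσ : Transport p g σ) (hη : 0 < η) {t : ℝ} (ht : t ∈ Ioo (0 : ℝ) 1) :
    HasDerivAt (edgePath η σ) (edgePath' p η g σ t) t := by
  have hs := hσ.mem_Ioo t ht
  have hu : HasDerivAt σ (rate p g σ t) t := hσ.deriv t ht
  have hne : (1 : ℝ) - σ t ≠ 0 := (sub_pos.2 hs.2).ne'
  have hq := ((hasDerivAt_id t).const_sub 1).div ((hu.const_sub 1).mul_const η)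
    (mul_ne_zero hne hη.ne')
  have hc := (hasDerivAt_step ((1 - t) / ((1 - σ t) * η))).comp t hq
  refine ((hc.mul hu).add (hc.const_sub 1)).congr_deriv ?_
  simp only [edgePath', Tail.cut, Function.comp_apply, id_eq, Pi.div_apply]
  field_simp
  ring

theorem integrable_edgePath' (hg : Regular g) (hσ : Transport p g σ) (hη : 0 < η) :
    IntervalIntegrable (edgePath' p η g σ) volume 0 1 := by
  have hr := hσ.integrable_rate hg
  have hcont : ContinuousOn (fun t => cut η (σ t) t) (Ioo 0 1) :=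
    (continuousOn_cut hσ hη).mono Ioo_subset_Ico_self
  have hx : ContinuousOn (fun t => (1 - t) / ((1 - σ t) * η)) (Ioo 0 1) :=
    (continuousOn_const.sub continuousOn_id).div
      ((continuousOn_const.sub (hσ.cont.mono Ioo_subset_Icc_self)).mul continuousOn_const)
      fun t ht => mul_ne_zero (sub_pos.2 (hσ.mem_Ioo t ht).2).ne' hη.ne'
  have hbdd : ∀ (B : ℝ) (f : ℝ → ℝ), ContinuousOn f (Ioo 0 1) → (∀ t, ‖f t‖ ≤ B) →
      IntervalIntegrable (fun t => rate p g σ t * f t) volume 0 1 := fun B f hf hB => by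
    rw [intervalIntegrable_iff_integrableOn_Ioo_of_le zero_le_one] at hr ⊢
    exact hr.mul_bdd (hf.aestronglyMeasurable measurableSet_Ioo) (ae_of_all _ hB)
  have i1 := hbdd 1 _ hcont fun t => by
    rw [Real.norm_eq_abs, Tail.cut, abs_of_nonneg (step_mem _).1]
    exact (step_mem _).2
  have i2 : IntervalIntegrable (fun t => step' ((1 - t) / ((1 - σ t) * η)) / η) volume 0 1 := by
    rw [intervalIntegrable_iff_integrableOn_Ioo_of_le zero_le_one]
    refine IntegrableOn.of_bound measure_Ioo_lt_top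
      (((continuous_step'.comp_continuousOn hx).div_const η).aestronglyMeasurable measurableSet_Ioo)
      (32 / η) (ae_of_all _ fun t => ?_)
    rw [norm_div, Real.norm_eq_abs, Real.norm_eq_abs, abs_of_pos hη]
    exact div_le_div_of_nonneg_right (abs_step'_le _).1 hη.le
  have i3 := hbdd 32 (fun t => (1 - t) / ((1 - σ t) * η) * step' ((1 - t) / ((1 - σ t) * η)))
    (hx.mul (continuous_step'.comp_continuousOn hx)) fun t => (abs_step'_le _).2
  refine ((i1.add i2).sub i3).congr fun t _ => ?_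
  simp only [edgePath']
  field_simp
  ring

/-- The slope field along the transport. -/
noncomputable def fieldPath (p : ℕ) (M1 M2 η : ℝ) (g σ : ℝ → ℝ) (t : ℝ) : ℝ :=
  slopeField (p + 1) M1 M2 η (σ t) t (g t)

/-- Its derivative. -/
noncomputable def fieldPath' (p : ℕ) (M1 M2 η : ℝ) (g σ : ℝ → ℝ) (t : ℝ) : ℝ :=
  rate p g σ t * (far (σ t) t * (1 - step (cliffArg (p + 1) M1 M2 t (g t)))) +
    ((p + 1 : ℕ) : ℝ) * (vSurf (p + 1) M1 M2 - slopeR g t) *
      (far (σ t) t * (1 - σ t) * step' (cliffArg (p + 1) M1 M2 t (g t))) +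
    (1 - far (σ t) t) * edgePath' p η g σ t +
    (1 - rate p g σ t) * (step' (5 / 2 * (t - σ t)) * (5 / 2) *
      (cliffField (p + 1) M1 M2 (σ t) t (g t) - edgeField η (σ t) t))

variable {M1 M2 : ℝ}

theorem continuousOn_far (hσ : Transport p g σ) :
    ContinuousOn (fun t => far (σ t) t) (Icc 0 1) :=
  continuous_step.comp_continuousOn (continuousOn_const.mul (continuousOn_id.sub hσ.cont))

theorem continuousOn_cliffArg (hg : Regular g) :
    ContinuousOn (fun t => cliffArg (p + 1) M1 M2 t (g t)) (Icc 0 1) :=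
  continuousOn_const.add (continuousOn_const.mul ((continuousOn_const.mul continuousOn_id).sub
    (hg.cont.mono (Icc_subset_Icc (by norm_num) le_rfl))))

theorem continuousOn_cliffPath (hg : Regular g) (hσ : Transport p g σ) :
    ContinuousOn (fun t => cliffField (p + 1) M1 M2 (σ t) t (g t)) (Icc 0 1) :=
  hσ.cont.add ((continuousOn_const.sub hσ.cont).mul
    (continuous_step.comp_continuousOn (continuousOn_cliffArg hg)))

theorem continuousOn_fieldPath (hg : Regular g) (hσ : Transport p g σ) (hη : 0 < η) :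
    ContinuousOn (fieldPath p M1 M2 η g σ) (Icc 0 1) :=
  ((continuousOn_far hσ).mul (continuousOn_cliffPath hg hσ)).add
    ((continuousOn_const.sub (continuousOn_far hσ)).mul (continuousOn_edgePath hσ hη))

theorem hasDerivWithinAt_fieldPath (hg : Regular g) (hσ : Transport p g σ) (hη : 0 < η) {t : ℝ}
    (ht : t ∈ Ioo (0 : ℝ) 1) :
    HasDerivWithinAt (fieldPath p M1 M2 η g σ) (fieldPath' p M1 M2 η g σ t) (Ioi t) t := by
  have hid := (hasDerivAt_id t).hasDerivWithinAt (s := Ioi t)
  have hu : HasDerivWithinAt σ (rate p g σ t) (Ioi t) t := (hσ.deriv t ht).hasDerivWithinAt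
  have hgd := hasDerivWithinAt_slopeR hg.concave
    (show t ∈ Ioo (-1 : ℝ) 1 from ⟨by linarith [ht.1], ht.2⟩)
  have hy := (((hid.const_mul (vSurf (p + 1) M1 M2)).sub hgd).const_mul
    (((p + 1 : ℕ) : ℝ))).const_add 1
  have hchi := (hasDerivAt_step (cliffArg (p + 1) M1 M2 t (g t))).comp_hasDerivWithinAt t hy
  have hcl := hu.add ((hu.const_sub 1).mul hchi)
  have hfar := (hasDerivAt_step (5 / 2 * (t - σ t))).comp_hasDerivWithinAt t
    ((hid.sub hu).const_mul (5 / 2))
  have he := (hasDerivAt_edgePath hσ hη ht).hasDerivWithinAt (s := Ioi t)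
  refine ((hfar.mul hcl).add ((hfar.const_sub 1).mul he)).congr_deriv ?_
  simp only [fieldPath', edgePath, Tail.far, Tail.cliffField, Tail.cliffArg, Function.comp_apply,
    id_eq, Pi.add_apply, Pi.mul_apply, Pi.sub_apply]
  ring

theorem integrable_fieldPath' (hg : Regular g) (hσ : Transport p g σ) (hη : 0 < η) :
    IntervalIntegrable (fieldPath' p M1 M2 η g σ) volume 0 1 := by
  have hu : uIcc (0 : ℝ) 1 = Icc 0 1 := uIcc_of_le zero_le_one
  have hr : IntervalIntegrable (rate p g σ) volume 0 1 := hσ.integrable_rate hg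
  have hs : IntervalIntegrable (slopeR g) volume 0 1 := hg.integrable_slopeR.mono_set (by
    rw [hu, uIcc_of_le (by norm_num : (-1 : ℝ) ≤ 1)]; exact Icc_subset_Icc (by norm_num) le_rfl)
  have hf := continuousOn_far hσ
  have hchi := continuousOn_cliffArg (p := p) (M1 := M1) (M2 := M2) hg
  have i1 := hr.mul_continuousOn (g := fun t => far (σ t) t * (1 - step (cliffArg (p + 1) M1 M2 t (g t))))
    (hu.symm ▸ hf.mul (continuousOn_const.sub (continuous_step.comp_continuousOn hchi)))
  have i2 := (((intervalIntegrable_const (c := vSurf (p + 1) M1 M2)).sub hs).const_mul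
    (((p + 1 : ℕ) : ℝ))).mul_continuousOn
    (g := fun t => far (σ t) t * (1 - σ t) * step' (cliffArg (p + 1) M1 M2 t (g t)))
    (hu.symm ▸ (hf.mul (continuousOn_const.sub hσ.cont)).mul
      (continuous_step'.comp_continuousOn hchi))
  have i3 := (integrable_edgePath' hg hσ hη).continuousOn_mul
    (g := fun t => 1 - far (σ t) t) (hu.symm ▸ continuousOn_const.sub hf)
  have i4 := ((intervalIntegrable_const (c := (1 : ℝ))).sub hr).mul_continuousOn
    (g := fun t => step' (5 / 2 * (t - σ t)) * (5 / 2) *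
      (cliffField (p + 1) M1 M2 (σ t) t (g t) - edgeField η (σ t) t))
    (hu.symm ▸ ((continuous_step'.comp_continuousOn
      (continuousOn_const.mul (continuousOn_id.sub hσ.cont))).mul continuousOn_const).mul
        ((continuousOn_cliffPath hg hσ).sub (continuousOn_edgePath hσ hη)))
  exact ((i1.add i2).add i3).add i4

theorem sq_lt_one {x : ℝ} (h0 : 0 < x) (h1 : x < 1) : x ^ 2 < 1 :=
  pow_lt_one₀ h0.le h1 two_ne_zero

/-- The tail integrand times the rate, in the form the bridge consumes. -/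
theorem rate_mul_total {M1 M2 s S y : ℝ} (hs : s ^ 2 < 1) (hS : S ^ 2 < 1) (hy : 0 < y) (u : ℝ) :
    y ^ (p + 1) / cs s ^ (p + 1) * total (p + 1) b M1 M2 C a A A' kap0 η s S (cs s / y) u =
      y ^ (p + 1) / cs s ^ (p + 1) * P (p + 1) b M1 M2 C s S (cs s / y) +
        (field p M1 M2 (slopeField (p + 1) M1 M2 η s S y)
            (y ^ (p + 1) / cs s ^ (p + 1) * (far s S * (1 - step (cliffArg (p + 1) M1 M2 S y))) +
              ((p + 1 : ℕ) : ℝ) * (vSurf (p + 1) M1 M2 - -u) *
                (far s S * (1 - s) * step' (cliffArg (p + 1) M1 M2 S y)) +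
              (1 - far s S) *
                (y ^ (p + 1) / cs s ^ (p + 1) * cut η s S + step' ((1 - S) / ((1 - s) * η)) / η *
                  (1 - y ^ (p + 1) / cs s ^ (p + 1) * ((1 - S) / (1 - s)))) +
              (1 - y ^ (p + 1) / cs s ^ (p + 1)) * (step' (5 / 2 * (S - s)) * (5 / 2) *
                (cliffField (p + 1) M1 M2 s S y - edgeField η s S))) S y -
          field p M1 M2 s (y ^ (p + 1) / cs s ^ (p + 1)) S y) +
        gain p M1 M2 (slopeField (p + 1) M1 M2 η s S y) S y u +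
        (-(2 * cs S * vObs (p + 1) kap0 S) * (cs S - y) + vObs (p + 1) kap0 S * (1 - S ^ 2 - y ^ 2) +
          vObs (p + 1) kap0 S * ((1 - S ^ 2) * u - S * y) ^ 2 +
          vObs (p + 1) kap0 S * max (cs S - y) 0 ^ 2) +
        (y ^ (p + 1) / cs s ^ (p + 1) * null2s (p + 1) a A A' s S + null2S (p + 1) a A A' s S) := by
  set r := y ^ (p + 1) / cs s ^ (p + 1) with hr
  have hrz : r * (cs s / y) ^ (p + 1) = 1 := by
    rw [hr, div_pow]
    have := (cs_pos hs).ne'
    have := hy.ne'
    field_simp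
  have hga : cs s / (cs s / y) = y := div_div_cancel₀ (cs_pos hs).ne'
  have hmax : max (cs S - y) 0 ^ 2 = (cs S - y) ^ 2 - sqp (y - cs S) := by
    rcases le_total y (cs S) with h | h
    · rw [Tail.sqp, max_eq_left (by linarith), max_eq_right (by linarith)]; ring
    · rw [Tail.sqp, max_eq_right (by linarith), max_eq_left (by linarith)]; ring
  have hsq : 1 - S ^ 2 = cs S ^ 2 := (cs_sq hS.le).symm
  simp only [total, fieldDs, slopePart, slopeField', cliffField', edgeField', Nat.add_sub_cancel, hga, field, hmax, hsq]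
  generalize (cs s / y) ^ (p + 1) = q at hrz ⊢
  linear_combination (tangentT p M1 M2 (slopeField (p + 1) M1 M2 η s S y) S y +
    potT p M1 M2 (slopeField (p + 1) M1 M2 η s S y) S y - (tangentT p M1 M2 s S y + potT p M1 M2 s S y) +
    potK p M1 M2 (slopeField (p + 1) M1 M2 η s S y) S y *
      ((1 - far s S) * (step' ((1 - S) / ((1 - s) * η)) / η) +
        far s S * (1 - s) * step' (cliffArg (p + 1) M1 M2 S y) *
          (((p + 1 : ℕ) : ℝ) * (vSurf (p + 1) M1 M2 + u)) +
        step' (5 / 2 * (S - s)) * (5 / 2) *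
          (cliffField (p + 1) M1 M2 s S y - edgeField η s S)) +
    gain p M1 M2 (slopeField (p + 1) M1 M2 η s S y) S y u +
    vObs (p + 1) kap0 S * ((cs S ^ 2 * u - S * y) ^ 2 - sqp (y - cs S)) +
    null2S (p + 1) a A A' s S) * hrz

/-- A sign of the tail integrand along the transport gives the linear functional. -/
theorem linearForm_ge_of_total (hg : Regular g) (hp : 4 ≤ p) (hσ : Transport p g σ)
    {mu nu lam δ C a A A' kap0 η : ℝ} (hl0 : 0 < lam) (hl : lam ≤ 1)
    (hge : ∀ t ∈ Icc (-1 : ℝ) 1, lam * √(1 - t ^ 2) ≤ g t) (hη : 0 < η) (hη1 : η ≤ 1)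
    (hk0 : 0 ≤ kap0) (hk : kap0 ≤ 1 / 8) (hb : 89 / 100 ≤ b0 p) (hb1 : b0 p ≤ 1)
    (hδ : δ ≤ (mu - muMin p) * half p / ((p : ℝ) + 2))
    (hpos : ∀ t ∈ Ioo (0 : ℝ) 1,
      0 ≤ total (p + 1) (b0 p) (coefPi p mu) (coefJ p nu) C a A A' kap0 η (σ t) t (cs (σ t) / g t)
        (-slopeR g t)) :
    δ * (1 - lam) ≤ half p / ((p : ℝ) + 1) * linearForm p mu nu g lam := by
  set v := vObs (p + 1) kap0 with hvdef
  have hv : Continuous v := continuous_vObs
  have hv0 : ∀ t ∈ Icc (0 : ℝ) 1, 0 ≤ v t := fun t _ => by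
    rw [hvdef, Tail.vObs]
    exact mul_nonneg (mul_nonneg (mul_nonneg hk0 (by push_cast; linarith [Nat.cast_nonneg (α := ℝ) p]))
      (pow_nonneg (Real.sqrt_nonneg _) _)) (sq_nonneg _)
  set w := fun t => -(2 * cs t * v t) with hwdef
  have hw : Continuous w := ((cs_continuous.const_mul 2).mul hv).neg
  have hw0 : ∀ t ∈ Icc (0 : ℝ) 1, 0 ≤ weight p t + w t := fun t _ => by
    have := vObs_le (m := p + 1) (b := b0 p) (kap0 := kap0) (by omega) hb hb1 hk t
    rw [weight_eq]
    simp only [hwdef, hvdef]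
    linarith
  have htot : (∫ t in (0 : ℝ)..1, w t * √(1 - t ^ 2) + 2 * (v t * (1 - t ^ 2))) + δ ≤
      (mu - muMin p) * half p / ((p : ℝ) + 2) := by
    have e : ∀ t ∈ uIcc (0 : ℝ) 1, w t * √(1 - t ^ 2) + 2 * (v t * (1 - t ^ 2)) = 0 := fun t ht => by
      rw [uIcc_of_le zero_le_one] at ht
      rw [show √(1 - t ^ 2) = cs t from rfl, ← cs_sq (pow_le_one₀ ht.1 ht.2), hwdef]
      ring
    rw [intervalIntegral.integral_congr e]
    simpa using hδ
  set M1 := coefPi p mu
  set M2 := coefJ p nu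
  have hκ0 : fieldPath p M1 M2 η g σ 0 = 0 := by
    simp [fieldPath, Tail.slopeField, Tail.edgeField, Tail.far, Tail.cut, hσ.zero,
      Tail.step_of_one_le ((one_le_inv₀ hη).2 hη1), Tail.step_of_le (show (0 : ℝ) ≤ 7 / 8 by norm_num)]
  have hκ1 : fieldPath p M1 M2 η g σ 1 = 1 := by
    simp [fieldPath, Tail.slopeField, Tail.edgeField, Tail.cliffField, hσ.one]
  set ψ := fun t => null2 (p + 1) a A A' (σ t) t with hψdef
  set ψ' := fun t => rate p g σ t * null2s (p + 1) a A A' (σ t) t +
    null2S (p + 1) a A A' (σ t) t with hψ'def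
  have hψc : ContinuousOn ψ (Icc 0 1) :=
    continuousOn_null2 hσ.cont
  have hψ : ψ 0 = ψ 1 := by
    simp only [hψdef, Tail.null2, hσ.zero, hσ.one, show cs 1 = 0 by simp [cs]]
    simp [Tail.sqp]
  have hψd : ∀ t ∈ Ioo (0 : ℝ) 1, HasDerivWithinAt ψ (ψ' t) (Ioi t) t := fun t ht =>
    (hasDerivAt_null2 (by omega) (hσ.deriv t ht)
      (sq_lt_one (hσ.mem_Ioo t ht).1 (hσ.mem_Ioo t ht).2)).hasDerivWithinAt
  refine linearForm_ge_of_pointwise (C := C) hg (by omega) hσ hl0 hl hge hw hv hw0 hv0 htot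
    (continuousOn_fieldPath hg hσ hη) hκ0 hκ1
    (fun t ht => hasDerivWithinAt_fieldPath hg hσ hη ht) (integrable_fieldPath' hg hσ hη)
    hψc hψ hψd fun t ht => ?_
  have hs := hσ.mem_Ioo t ht
  have hgt := hg.pos_of_lt (t := t) ⟨ht.1.le, ht.2⟩
  have e := rate_mul_total (p := p) (b := b0 p) (C := C) (a := a) (A := A) (A' := A') (kap0 := kap0)
    (η := η) (M1 := M1) (M2 := M2) (sq_lt_one hs.1 hs.2) (sq_lt_one ht.1 ht.2) hgt
    (-slopeR g t)
  have h := mul_nonneg (Transport.rate_nonneg hg (Ioo_subset_Icc_self ht) (p := p) (σ := σ))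
    (hpos t ht)
  refine h.trans (le_of_eq ?_)
  simp only [hwdef, hψ'def, hvdef, fieldPath, fieldPath', edgePath', rate, obsGain, arc]
  simp only [cs, neg_neg] at e ⊢
  exact e

end Vale.Agent.P237.Petty.Centre
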