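import Mathlib.Analysis.SpecialFunctions.Log.Deriv
import Mathlib.Analysis.Calculus.Deriv.MeanValue
import Mathlib.Analysis.Convex.SpecificFunctions.Basic

/-!
# P237: comparisons between the gaps of powers

For `r > 0` and `z = r ^ (-1/m)` the gap of `r ↦ r ^ a` above its tangent at `1` is compared with
the gap `phi r = r - 1 - log r`.
-/

namespace Vale.Agent.P237.Petty.Centre

open Real

/-- The gap of `-log`, as a function of `z`. -/
noncomputable def gap (m : ℕ) (z : ℝ) : ℝ := (z ^ m)⁻¹ - 1 + (m : ℝ) * log z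

theorem two_sub_le_exp_neg (x : ℝ) (hx : 0 ≤ x) : 2 - x ≤ exp (-x) * (2 + x) := by
  have hd : ∀ y : ℝ, HasDerivAt (fun y => exp (-y) * (2 + y) + y) (1 - (1 + y) * exp (-y)) y := by
    intro y
    have h1 : HasDerivAt (fun y : ℝ => exp (-y)) (exp (-y) * -1) y := (hasDerivAt_neg y).exp
    have h2 : HasDerivAt (fun y : ℝ => 2 + y) 1 y := (hasDerivAt_id y).const_add 2
    exact ((h1.mul h2).add (hasDerivAt_id y)).congr_deriv (by ring)
  have hmono : MonotoneOn (fun y => exp (-y) * (2 + y) + y) (Set.Ici (0 : ℝ)) := by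
    refine monotoneOn_of_hasDerivWithinAt_nonneg (convex_Ici 0) (Continuous.continuousOn (by fun_prop))
      (fun y _ => (hd y).hasDerivWithinAt) (fun y hy => ?_)
    have hy0 : 0 < y := by simpa using hy
    have h := mul_le_mul_of_nonneg_right (add_one_le_exp y) (exp_pos (-y)).le
    rw [← exp_add, add_neg_cancel, exp_zero] at h
    linarith
  have h := hmono (Set.self_mem_Ici) (Set.mem_Ici.2 hx) hx
  simp at h
  linarith

theorem sq_le_gap (x : ℝ) : x ^ 2 ≤ (2 + max x 0) * (exp (-x) - 1 + x) := by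
  rcases le_total 0 x with hx | hx
  · rw [max_eq_left hx]
    nlinarith [two_sub_le_exp_neg x hx]
  · rw [max_eq_right hx]
    nlinarith [quadratic_le_exp_of_nonneg (x := -x) (by linarith)]

theorem exp_sub_le (x : ℝ) : exp x - 1 - x ≤ x ^ 2 / 2 * exp (max x 0) := by
  have hd : ∀ y : ℝ, HasDerivAt (fun y => exp y - 1 - y) (exp y - 1) y :=
    fun y => (((hasDerivAt_exp y).sub_const 1).sub (hasDerivAt_id y))
  rcases le_total 0 x with hx | hx
  · rw [max_eq_left hx]
    have hmono : MonotoneOn (fun y => y ^ 2 / 2 * exp y - (exp y - 1 - y)) (Set.Ici (0 : ℝ)) := by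
      refine monotoneOn_of_hasDerivWithinAt_nonneg (convex_Ici 0)
        (Continuous.continuousOn (by fun_prop))
        (fun y _ => ((((hasDerivAt_pow 2 y).div_const 2).mul (hasDerivAt_exp y)).sub
          (hd y)).hasDerivWithinAt) (fun y hy => ?_)
      have hy0 : 0 < y := by simpa using hy
      have h1 : exp y - 1 ≤ y * exp y := by
        have h := mul_le_mul_of_nonneg_right (add_one_le_exp (-y)) (exp_pos y).le
        rw [← exp_add, neg_add_cancel, exp_zero] at h
        linarith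
      have : (0 : ℝ) ≤ y ^ 2 * exp y := by positivity
      norm_num
      nlinarith
    have h := hmono Set.self_mem_Ici (Set.mem_Ici.2 hx) hx
    simp at h
    linarith
  · rw [max_eq_right hx, exp_zero, mul_one]
    have hmono : MonotoneOn (fun y => (exp y - 1 - y) - y ^ 2 / 2) (Set.Iic (0 : ℝ)) := by
      refine monotoneOn_of_hasDerivWithinAt_nonneg (convex_Iic 0)
        (Continuous.continuousOn (by fun_prop))
        (fun y _ => ((hd y).sub ((hasDerivAt_pow 2 y).div_const 2)).hasDerivWithinAt)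
        (fun y _ => ?_)
      have := add_one_le_exp y
      norm_num
      linarith
    have h := hmono (Set.mem_Iic.2 hx) Set.self_mem_Iic hx
    simp at h
    linarith

variable {m : ℕ} {z : ℝ}

theorem gap_eq (hz : 0 < z) : gap m z = exp (-((m : ℝ) * log z)) - 1 + (m : ℝ) * log z := by
  rw [gap, exp_neg, ← log_pow, exp_log (pow_pos hz m)]

theorem gap_nonneg (hz : 0 < z) : 0 ≤ gap m z := by
  rw [gap_eq hz]
  linarith [add_one_le_exp (-((m : ℝ) * log z))]

/-- The gap of `r ^ (-e)`. -/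
theorem mul_gap_le_first (hm : 0 < m) (hz : 0 < z) :
    (m : ℝ)⁻¹ * gap m z ≤ z - 1 + (m : ℝ)⁻¹ * ((z ^ m)⁻¹ - 1) := by
  have hm0 : (m : ℝ) ≠ 0 := by positivity
  have h := log_le_sub_one_of_pos hz
  rw [gap, mul_add, inv_mul_cancel_left₀ hm0]
  linarith

/-- The gap of `r ^ (-2e)` is at most that of `log`, up to a small factor. -/
theorem second_le_mul_gap (hm : 0 < m) (hz : 0 < z) :
    z ^ 2 - 1 + 2 * (m : ℝ)⁻¹ * ((z ^ m)⁻¹ - 1) ≤ 2 * (m : ℝ)⁻¹ * gap m z *
      (1 + (m : ℝ)⁻¹ * (2 + z ^ m) * exp (2 * (m : ℝ)⁻¹ * z ^ m)) := by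
  have hm0 : (m : ℝ) ≠ 0 := by positivity
  have hq : 0 < z ^ m := pow_pos hz m
  set L := (m : ℝ) * log z with hL
  set e := (m : ℝ)⁻¹ with he
  have he0 : 0 < e := by positivity
  have hzz : z ^ 2 = exp (2 * e * L) := by
    rw [hL, he, mul_assoc, inv_mul_cancel_left₀ hm0, show (2 : ℝ) * log z = log (z ^ 2) by
      rw [log_pow]; norm_num, exp_log (pow_pos hz 2)]
  have hg : gap m z = exp (-L) - 1 + L := gap_eq hz
  have hq' : (z ^ m)⁻¹ = exp (-L) := by rw [exp_neg, hL, ← log_pow, exp_log hq]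
  have hLq : max L 0 ≤ z ^ m := by
    refine max_le ?_ hq.le
    rw [hL, ← log_pow]
    linarith [log_le_sub_one_of_pos hq]
  have hg0 := gap_nonneg (m := m) hz
  have h1 := exp_sub_le (2 * e * L)
  have h2 : L ^ 2 ≤ (2 + z ^ m) * gap m z := by
    refine (sq_le_gap L).trans ?_
    rw [← hg]
    exact mul_le_mul_of_nonneg_right (by linarith) hg0
  have h3 : exp (max (2 * e * L) 0) ≤ exp (2 * e * z ^ m) := by
    refine exp_le_exp.2 (max_le ?_ (by positivity))
    exact mul_le_mul_of_nonneg_left ((le_max_left _ _).trans hLq) (by positivity)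
  have h4 : (2 * e * L) ^ 2 / 2 * exp (max (2 * e * L) 0) ≤
      2 * e * (e * (2 + z ^ m) * exp (2 * e * z ^ m)) * gap m z := by
    calc _ ≤ (2 * e * L) ^ 2 / 2 * exp (2 * e * z ^ m) :=
          mul_le_mul_of_nonneg_left h3 (by positivity)
      _ = 2 * e ^ 2 * L ^ 2 * exp (2 * e * z ^ m) := by ring
      _ ≤ 2 * e ^ 2 * ((2 + z ^ m) * gap m z) * exp (2 * e * z ^ m) := by gcongr
      _ = _ := by ring
  rw [hzz, hq']
  rw [hg] at h4 ⊢
  linarith

/-- The gap of `r ^ (-(1-e))` is at most `1 - e` times the gap of `r⁻¹`. -/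
theorem third_le (hm : 0 < m) (hz : 0 < z) :
    z ^ (m - 1) - 1 ≤ (1 - (m : ℝ)⁻¹) * (z ^ m - 1) := by
  have hm0 : (0 : ℝ) < m := by positivity
  have h := convexOn_exp.2 (Set.mem_univ ((m : ℝ) * log z)) (Set.mem_univ 0)
    (show (0 : ℝ) ≤ 1 - (m : ℝ)⁻¹ from sub_nonneg.2 (Nat.cast_inv_le_one m))
    (show (0 : ℝ) ≤ (m : ℝ)⁻¹ by positivity) (by ring)
  simp only [smul_eq_mul, mul_zero, add_zero, exp_zero, mul_one] at h
  have h1 : (1 - (m : ℝ)⁻¹) * ((m : ℝ) * log z) = ((m - 1 : ℕ) : ℝ) * log z := by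
    rw [Nat.cast_sub hm]
    field_simp
    ring
  rw [h1, ← log_pow, ← log_pow, exp_log (pow_pos hz _), exp_log (pow_pos hz _)] at h
  linarith

/-- The gap of `r ^ (1-2e)` is not positive. -/
theorem fourth_le (hm : 2 ≤ m) (hz : 0 < z) :
    (z ^ m)⁻¹ * z ^ 2 - 1 ≤ (1 - 2 * (m : ℝ)⁻¹) * ((z ^ m)⁻¹ - 1) := by
  have hm0 : (0 : ℝ) < m := by positivity
  have h2 : (2 : ℝ) ≤ m := by exact_mod_cast hm
  have h := convexOn_exp.2 (Set.mem_univ (-((m : ℝ) * log z))) (Set.mem_univ 0)
    (show (0 : ℝ) ≤ 1 - 2 * (m : ℝ)⁻¹ by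
      rw [sub_nonneg, ← div_eq_mul_inv, div_le_one hm0]; exact h2)
    (show (0 : ℝ) ≤ 2 * (m : ℝ)⁻¹ by positivity) (by ring)
  simp only [smul_eq_mul, mul_zero, add_zero, exp_zero, mul_one] at h
  have h1 : (1 - 2 * (m : ℝ)⁻¹) * -((m : ℝ) * log z) =
      -((m : ℝ) * log z) + ((2 : ℕ) : ℝ) * log z := by
    push_cast
    field_simp
    ring
  rw [h1, exp_add, exp_neg, ← log_pow, ← log_pow, exp_log (pow_pos hz _),
    exp_log (pow_pos hz _)] at h
  linarith

/-- The gap of `r⁻¹` is at most `2 + q` times the gap of `log`. -/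
theorem inv_gap_le (hz : 0 < z) :
    z ^ m - 1 + ((z ^ m)⁻¹ - 1) ≤ (2 + z ^ m) * gap m z := by
  set q := z ^ m with hq
  have hq0 : 0 < q := pow_pos hz m
  have hl : (m : ℝ) * log z = log q := by rw [hq, log_pow]
  rw [gap, hl]
  -- the gap of `q` against the gap of `q⁻¹`
  have h1 := one_sub_inv_le_log_of_pos hq0
  have h2 := log_le_sub_one_of_pos hq0
  have hmono : MonotoneOn (fun y => (1 + y) * (y⁻¹ - 1 + log y) - (y - 1 - log y)) (Set.Ici 1) ∧
      AntitoneOn (fun y => (1 + y) * (y⁻¹ - 1 + log y) - (y - 1 - log y)) (Set.Ioc 0 1) := by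
    have hd : ∀ y : ℝ, 0 < y → HasDerivAt
        (fun y => (1 + y) * (y⁻¹ - 1 + log y) - (y - 1 - log y))
        ((y⁻¹ - 1 + log y) + (y - 1) / y ^ 2) y := by
      intro y hy
      have hl := hasDerivAt_log hy.ne'
      refine ((((hasDerivAt_id y).const_add 1).mul
        (((hasDerivAt_inv hy.ne').sub_const 1).add hl)).sub
        (((hasDerivAt_id y).sub_const 1).sub hl)).congr_deriv ?_
      simp only [id, Pi.add_apply]
      field_simp
      ring
    constructor
    · refine monotoneOn_of_hasDerivWithinAt_nonneg (convex_Ici 1) ?_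
        (fun y hy => (hd y (lt_trans one_pos (by simpa using hy))).hasDerivWithinAt) (fun y hy => ?_)
      · exact fun y hy => (hd y (lt_of_lt_of_le one_pos hy)).continuousAt.continuousWithinAt
      · have hy1 : 1 < y := by simpa using hy
        have := one_sub_inv_le_log_of_pos (lt_trans one_pos hy1)
        have : 0 ≤ (y - 1) / y ^ 2 := div_nonneg (by linarith) (sq_nonneg y)
        linarith
    · refine antitoneOn_of_hasDerivWithinAt_nonpos (convex_Ioc 0 1) ?_
        (fun y hy => (hd y (by simp at hy; exact hy.1)).hasDerivWithinAt) (fun y hy => ?_)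
      · exact fun y hy => (hd y hy.1).continuousAt.continuousWithinAt
      · have hy' : 0 < y ∧ y < 1 := by simpa using hy
        have hy0 := hy'.1
        have hlog := log_le_sub_one_of_pos hy0
        have hkey : (y⁻¹ - 1 + (y - 1)) + (y - 1) / y ^ 2 = (y - 1) * (y ^ 2 - y + 1) / y ^ 2 := by
          field_simp
          ring
        have : (y - 1) * (y ^ 2 - y + 1) / y ^ 2 ≤ 0 :=
          div_nonpos_of_nonpos_of_nonneg
            (mul_nonpos_of_nonpos_of_nonneg (by linarith) (by nlinarith)) (sq_nonneg y)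
        linarith
  rcases le_total 1 q with h | h
  · have := hmono.1 Set.self_mem_Ici (Set.mem_Ici.2 h) h
    simp at this
    linarith
  · have := hmono.2 ⟨hq0, h⟩ ⟨one_pos, le_rfl⟩ h
    simp at this
    linarith

/-- Completing the gap against a linear term. -/
theorem gap_add_linear (hz : 0 < z) {T N : ℝ} (hN : |N| ≤ 17 / 18 * T) :
    -(18 * N ^ 2 / T) ≤ T * gap m z - N * ((z ^ m)⁻¹ - 1) := by
  set r := (z ^ m)⁻¹ with hr
  have hr0 : 0 < r := by positivity
  rcases (abs_nonneg N).trans hN |>.eq_or_lt with hT | hT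
  · have : T = 0 := by linarith
    have : N = 0 := abs_nonpos_iff.1 (by linarith)
    subst_vars
    simp
  have hT0 : 0 < T := by linarith
  obtain ⟨hN1, hN2⟩ := abs_le.1 hN
  set l := N / T with hl
  have hl1 : l ≤ 17 / 18 := by rw [hl, div_le_iff₀ hT0]; linarith
  have hNl : N = T * l := by rw [hl, mul_div_cancel₀ N hT0.ne']
  have h1 : 0 < 1 - l := by linarith
  have h2 := log_le_sub_one_of_pos (mul_pos h1 hr0)
  rw [log_mul h1.ne' hr0.ne'] at h2
  have h3 := one_sub_inv_le_log_of_pos h1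
  have h4 : (1 - l)⁻¹ - 1 - l ≤ 18 * l ^ 2 := by
    have : (1 - l)⁻¹ - 1 - l = l ^ 2 * (1 - l)⁻¹ := by field_simp; ring
    rw [this, mul_comm 18]
    refine mul_le_mul_of_nonneg_left ?_ (sq_nonneg l)
    rw [inv_le_comm₀ h1 (by norm_num)]
    linarith
  have h5 : log r = -((m : ℝ) * log z) := by rw [hr, log_inv, log_pow]
  rw [gap, ← hr, hNl, show 18 * (T * l) ^ 2 / T = T * (18 * l ^ 2) by field_simp,
    show T * (r - 1 + (m : ℝ) * log z) - T * l * (r - 1) = T * ((1 - l) * r - 1 + l - log r) by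
      rw [h5]; ring, ← mul_neg]
  exact mul_le_mul_of_nonneg_left (by linarith) hT0.le

end Vale.Agent.P237.Petty.Centre
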