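import Vale.Agent.P237.Petty.Centre.Defs
import Vale.Agent.P237.Petty.Centre.Phi

/-!
# P237: the exact expansion of the calibrated integrand

`P` equals its value at `r = 1` plus the gaps of the powers of `r` and one linear term.
-/

namespace Vale.Agent.P237.Petty.Centre

/-- The coefficient of `1 - r`. -/
noncomputable def coN (m : ℕ) (M1 M2 C s S : ℝ) : ℝ :=
  (m : ℝ)⁻¹ * cs s ^ (m - 2) * (Gd m M1 M2 s - coG m M1 M2 s S) +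
    kap m C s * sat' m (S - s)

theorem cs_pos {s : ℝ} (h : s ^ 2 < 1) : 0 < cs s := Real.sqrt_pos.2 (by linarith)

theorem fW_nonneg {m : ℕ} {b t : ℝ} (hm : 1 ≤ m) (hb : 0 < b) : 0 ≤ fW m b t := by
  have : (1 : ℝ) ≤ m := by exact_mod_cast hm
  have : (0 : ℝ) ≤ cs t := Real.sqrt_nonneg _
  unfold fW wPoly
  positivity

variable {m : ℕ} {b M1 M2 C s S z : ℝ}

theorem P_eq (hm : 4 ≤ m) (hz : 0 < z) (hs : s ^ 2 < 1) (hS : S ^ 2 < 1) :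
    P m b M1 M2 C s S z = U m b M1 M2 s S + kap' m C s * sat m (S - s) +
      (hd m M1 M2 s + kap m C s * sat' m (S - s)) * (z ^ m - 1 + ((z ^ m)⁻¹ - 1)) +
      2 * cs s * fW m b S * ((1 - (m : ℝ)⁻¹) * (z ^ m - 1 + ((z ^ m)⁻¹ - 1)) -
        (z ^ (m - 1) - 1 + (1 - (m : ℝ)⁻¹) * ((z ^ m)⁻¹ - 1))) +
      cs s ^ (m - 2) * (cs s * (z - 1 + (m : ℝ)⁻¹ * ((z ^ m)⁻¹ - 1)) -
        coA m M1 s S * (z ^ 2 - 1 + 2 * (m : ℝ)⁻¹ * ((z ^ m)⁻¹ - 1)) -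
        2 * ((m : ℝ) - 2)⁻¹ * M1 * (1 - s * S) * S ^ 2 *
          ((z ^ m)⁻¹ * z ^ 2 - 1 - (1 - 2 * (m : ℝ)⁻¹) * ((z ^ m)⁻¹ - 1))) -
      coN m M1 M2 C s S * ((z ^ m)⁻¹ - 1) := by
  have hm4 : (4 : ℝ) ≤ m := by exact_mod_cast hm
  have hee : ((m : ℝ) - 2)⁻¹ * (1 - 2 * (m : ℝ)⁻¹) = (m : ℝ)⁻¹ := by
    have : (m : ℝ) ≠ 0 := by positivity
    have : (m : ℝ) - 2 ≠ 0 := by linarith
    field_simp
  have hzm : z ^ m = z ^ (m - 1) * z := by rw [← pow_succ, Nat.sub_add_cancel (by omega)]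
  have hq : (z ^ m)⁻¹ * z ^ m = 1 := inv_mul_cancel₀ (pow_pos hz m).ne'
  have hcS := (cs_pos hS).ne'
  have hW : 2 * W0 m b S * z ^ m * (1 - cs s / (z * cs S)) =
      2 * W0 m b S * z ^ m - 2 * cs s * fW m b S * z ^ (m - 1) := by
    rw [W0, hzm]
    field_simp [hz.ne', hcS]
  have hW1 : 2 * W0 m b s * (1 : ℝ) ^ m * (1 - cs s / (1 * cs s)) = 0 := by
    rw [one_mul, div_self (cs_pos hs).ne', sub_self, mul_zero]
  unfold P Q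
  rw [hW, hW1]
  simp only [one_pow, mul_one, inv_one, null0s, null0S, U, R0, coN, coG, hd, W0]
  generalize z ^ m = q at hq ⊢
  generalize q⁻¹ = r at hq ⊢
  generalize z ^ (m - 1) = w
  generalize cs s ^ (m - 2) = cm
  linear_combination (-2 * cm * M1 * (1 - s * S) * S ^ 2 * (r - 1)) * hee

theorem le_P (hm : 4 ≤ m) (hb : 0 < b) (hM1 : 0 ≤ M1) (hz : 0 < z) (hs : s ^ 2 < 1)
    (hS : S ^ 2 < 1) (ha : 0 ≤ 1 - s * S) (hA : 0 ≤ coA m M1 s S) {T : ℝ}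
    (hT : (m : ℝ)⁻¹ * (2 + z ^ m) * Real.exp (2 * (m : ℝ)⁻¹ * z ^ m) ≤ T) :
    U m b M1 M2 s S + kap' m C s * sat m (S - s) +
      (hd m M1 M2 s + kap m C s * sat' m (S - s)) * (z ^ m - 1 + ((z ^ m)⁻¹ - 1)) +
      (m : ℝ)⁻¹ * cs s ^ (m - 2) * (cs s - 2 * coA m M1 s S * (1 + T)) * gap m z -
      coN m M1 M2 C s S * ((z ^ m)⁻¹ - 1) ≤ P m b M1 M2 C s S z := by
  rw [P_eq hm hz hs hS]
  have hm4 : (4 : ℝ) ≤ m := by exact_mod_cast hm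
  have hm0 : 0 < m := by omega
  have hc := cs_pos hs
  have hg := gap_nonneg (m := m) hz
  have h3 : (0 : ℝ) ≤ (1 - (m : ℝ)⁻¹) * (z ^ m - 1 + ((z ^ m)⁻¹ - 1)) -
      (z ^ (m - 1) - 1 + (1 - (m : ℝ)⁻¹) * ((z ^ m)⁻¹ - 1)) := by
    have := third_le hm0 hz
    linarith
  have hW : 0 ≤ 2 * cs s * fW m b S := by
    have := fW_nonneg (t := S) (m := m) (by omega) hb
    positivity
  have h4 : 2 * ((m : ℝ) - 2)⁻¹ * M1 * (1 - s * S) * S ^ 2 *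
      ((z ^ m)⁻¹ * z ^ 2 - 1 - (1 - 2 * (m : ℝ)⁻¹) * ((z ^ m)⁻¹ - 1)) ≤ 0 := by
    refine mul_nonpos_of_nonneg_of_nonpos ?_ (by linarith [fourth_le (m := m) (by omega) hz])
    have : (0 : ℝ) ≤ ((m : ℝ) - 2)⁻¹ := inv_nonneg.2 (by linarith)
    positivity
  have h1 := mul_le_mul_of_nonneg_left (mul_gap_le_first hm0 hz) hc.le
  have h2 : coA m M1 s S * (z ^ 2 - 1 + 2 * (m : ℝ)⁻¹ * ((z ^ m)⁻¹ - 1)) ≤
      coA m M1 s S * (2 * (m : ℝ)⁻¹ * gap m z * (1 + T)) :=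
    mul_le_mul_of_nonneg_left ((second_le_mul_gap hm0 hz).trans
      (mul_le_mul_of_nonneg_left (by linarith) (by positivity))) hA
  have h5 : (m : ℝ)⁻¹ * (cs s - 2 * coA m M1 s S * (1 + T)) * gap m z ≤
      cs s * (z - 1 + (m : ℝ)⁻¹ * ((z ^ m)⁻¹ - 1)) -
        coA m M1 s S * (z ^ 2 - 1 + 2 * (m : ℝ)⁻¹ * ((z ^ m)⁻¹ - 1)) -
        2 * ((m : ℝ) - 2)⁻¹ * M1 * (1 - s * S) * S ^ 2 *
          ((z ^ m)⁻¹ * z ^ 2 - 1 - (1 - 2 * (m : ℝ)⁻¹) * ((z ^ m)⁻¹ - 1)) := by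
    linarith
  have h6 := mul_le_mul_of_nonneg_left h5 (pow_nonneg hc.le (m - 2))
  linarith [mul_nonneg hW h3]

end Vale.Agent.P237.Petty.Centre
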