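import Mathlib.MeasureTheory.Integral.IntervalIntegral.FundThmCalculus
import Mathlib.Analysis.SpecialFunctions.Pow.Real

/-!
# P237: the calibrated integrand in the variables of the transport

The variables are `s` (the circle), `S` (the profile) and `z`, with `q = z ^ m` the derivative
of `S` in `s` and `r = q⁻¹`. The constants are `e = 1/m`, `e' = 1/(m-2)`, `b`, `M₁`, `M₂`. The
function `P` is the integrand minus its value at the circle plus two exact derivatives.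
-/

namespace Vale.Agent.P237.Petty.Centre

/-- The circle. -/
noncomputable def cs (s : ℝ) : ℝ := √(1 - s ^ 2)

/-- The obstacle weight divided by the circle, as a function of `u = cs t`. -/
noncomputable def wPoly (m : ℕ) (b u : ℝ) : ℝ :=
  ((m : ℝ) - 1) / (4 * b ^ 3) * (u ^ (m - 2) * (u - b) ^ 2 * (u + 2 * b))

/-- The obstacle weight divided by the circle. -/
noncomputable def fW (m : ℕ) (b t : ℝ) : ℝ := wPoly m b (cs t)

/-- The obstacle weight. -/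
noncomputable def W0 (m : ℕ) (b t : ℝ) : ℝ := cs t * fW m b t

/-- The coefficient of `z ^ 2`. -/
noncomputable def coA (m : ℕ) (M1 s S : ℝ) : ℝ :=
  M1 * (1 - s ^ 2 * S ^ 2 - ((m : ℝ) - 2)⁻¹ * (1 - 4 * (s * S) + 3 * (s * S) ^ 2))

/-- The part of the integrand without the obstacle at `r = 1`. -/
noncomputable def R0 (m : ℕ) (M1 M2 s S : ℝ) : ℝ :=
  cs s - coA m M1 s S - M2 * (1 - s ^ 2) * s ^ 2 * (1 + (m : ℝ)⁻¹) +
    2 * (m : ℝ)⁻¹ * M2 * (1 - s ^ 2) * (1 - s * S) -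
    2 * ((m : ℝ) - 2)⁻¹ * M1 * (1 - s * S) * S ^ 2

/-- The derivative of `R0` in its last variable. -/
noncomputable def R0' (m : ℕ) (M1 M2 s S : ℝ) : ℝ :=
  2 * M1 * s ^ 2 * S -
    2 * ((m : ℝ) - 2)⁻¹ * M1 * (2 * s + 2 * S - 3 * s ^ 2 * S - 3 * s * S ^ 2) -
    2 * M2 * (m : ℝ)⁻¹ * (1 - s ^ 2) * s

/-- The integrand. -/
noncomputable def Q (m : ℕ) (b M1 M2 s S z : ℝ) : ℝ :=
  cs s ^ (m - 2) * (cs s * z - coA m M1 s S * z ^ 2 -
    M2 * (1 - s ^ 2) * s ^ 2 * (1 + (m : ℝ)⁻¹) +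
    2 * (m : ℝ)⁻¹ * M2 * (1 - s ^ 2) * (1 - s * S) * (z ^ m)⁻¹ -
    2 * ((m : ℝ) - 2)⁻¹ * M1 * (1 - s * S) * S ^ 2 * ((z ^ m)⁻¹ * z ^ 2)) +
  2 * W0 m b S * z ^ m * (1 - cs s / (z * cs S))

/-- The coefficient of `r - 1`, divided by `e`. -/
noncomputable def coG (m : ℕ) (M1 M2 s S : ℝ) : ℝ :=
  -cs s + 2 * coA m M1 s S + 2 * M2 * (1 - s ^ 2) * (1 - s * S) -
    2 * M1 * (1 - s * S) * S ^ 2

/-- The same coefficient on the diagonal. -/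
noncomputable def Gd (m : ℕ) (M1 M2 s : ℝ) : ℝ :=
  2 * M1 * (1 - s ^ 2) * (1 - ((m : ℝ) - 2)⁻¹ * (1 - 3 * s ^ 2)) +
    2 * M2 * (1 - s ^ 2) ^ 2 - cs s

/-- The weight of the first null function. -/
noncomputable def hd (m : ℕ) (M1 M2 s : ℝ) : ℝ :=
  (m : ℝ)⁻¹ * cs s ^ (m - 2) * Gd m M1 M2 s

/-- The derivative of `hd`. -/
noncomputable def hd' (m : ℕ) (M1 M2 s : ℝ) : ℝ :=
  (m : ℝ)⁻¹ * cs s ^ (m - 4) * (-((m : ℝ) - 2) * s * Gd m M1 M2 s +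
    (1 - s ^ 2) * (2 * M1 * (-2 * s * (1 - ((m : ℝ) - 2)⁻¹ * (1 - 3 * s ^ 2)) +
      (1 - s ^ 2) * (6 * ((m : ℝ) - 2)⁻¹ * s)) +
      2 * M2 * (-4 * s * (1 - s ^ 2)) + s / cs s))

/-- The first null function. -/
noncomputable def null0 (m : ℕ) (b M1 M2 s S : ℝ) : ℝ :=
  hd m M1 M2 s * (S - s) - 2 * ((∫ t in (0 : ℝ)..S, W0 m b t) - ∫ t in (0 : ℝ)..s, W0 m b t) +
    2 * (1 - (m : ℝ)⁻¹) * cs s * ((∫ t in (0 : ℝ)..S, fW m b t) - ∫ t in (0 : ℝ)..s, fW m b t)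

/-- Its derivative in `s`. -/
noncomputable def null0s (m : ℕ) (b M1 M2 s S : ℝ) : ℝ :=
  hd' m M1 M2 s * (S - s) - hd m M1 M2 s + 2 * (m : ℝ)⁻¹ * W0 m b s -
    2 * (1 - (m : ℝ)⁻¹) * (s / cs s) * ∫ t in s..S, fW m b t

/-- Its derivative in `S`. -/
noncomputable def null0S (m : ℕ) (b M1 M2 s S : ℝ) : ℝ :=
  hd m M1 M2 s - 2 * W0 m b S + 2 * (1 - (m : ℝ)⁻¹) * cs s * fW m b S

/-- The weight of the second null function. -/
noncomputable def kap (m : ℕ) (C s : ℝ) : ℝ :=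
  -(C * ((m : ℝ)⁻¹ * √(m : ℝ)⁻¹) * (cs s ^ m * Real.exp (-(√(m : ℝ) * s))))

/-- The derivative of `kap`. -/
noncomputable def kap' (m : ℕ) (C s : ℝ) : ℝ :=
  C * ((m : ℝ)⁻¹ * √(m : ℝ)⁻¹) * (cs s ^ m * Real.exp (-(√(m : ℝ) * s))) *
    ((m : ℝ) * s / (1 - s ^ 2) + √(m : ℝ))

/-- A saturated square. -/
noncomputable def sat (m : ℕ) (d : ℝ) : ℝ := d ^ 2 / (1 + (m : ℝ) * d ^ 2)

/-- The derivative of `sat`. -/
noncomputable def sat' (m : ℕ) (d : ℝ) : ℝ := 2 * d / (1 + (m : ℝ) * d ^ 2) ^ 2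

/-- The second null function. -/
noncomputable def null1 (m : ℕ) (C s S : ℝ) : ℝ := kap m C s * sat m (S - s)

/-- The calibrated difference from the circle. -/
noncomputable def P (m : ℕ) (b M1 M2 C s S z : ℝ) : ℝ :=
  Q m b M1 M2 s S z - Q m b M1 M2 s s 1 +
    (null0s m b M1 M2 s S + kap' m C s * sat m (S - s) - kap m C s * sat' m (S - s)) +
    z ^ m * (null0S m b M1 M2 s S + kap m C s * sat' m (S - s))

/-- The part of `P` at `r = 1`. -/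
noncomputable def U (m : ℕ) (b M1 M2 s S : ℝ) : ℝ :=
  cs s ^ (m - 2) * (R0 m M1 M2 s S - R0 m M1 M2 s s) + hd' m M1 M2 s * (S - s) -
    2 * (m : ℝ)⁻¹ * cs s * (fW m b S - fW m b s) -
    2 * (1 - (m : ℝ)⁻¹) * (s / cs s) * ∫ t in s..S, fW m b t

/-- The constants of the inequality. -/
structure Cnst (m : ℕ) (b M1 M2 : ℝ) : Prop where
  large : 100 ≤ m
  b_pos : 0 < b
  b_lo : (m : ℝ) / ((m : ℝ) + 1) ≤ b ^ 2
  b_hi : b ^ 2 ≤ ((m : ℝ) + 1) / ((m : ℝ) + 2)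
  sum_eq : M1 + M2 = ((m : ℝ) - 1) / (2 * ((m : ℝ) + 3) * b ^ 3)
  M1_lo : 36 / 100 ≤ M1
  M1_hi : M1 ≤ 377 / 1000

end Vale.Agent.P237.Petty.Centre
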