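import Vale.Agent.P237.Petty.Centre.Slope
import Mathlib.Analysis.Calculus.MeanValue

/-!
# P237: `U` is quadratically small near the centre

For `m s ^ 2 ≤ Y ^ 2` the second derivative of `U` in the transported variable is `O(1/m)`.
-/

namespace Vale.Agent.P237.Petty.Centre

open Real Set

/-- The second derivative of `fW`. -/
noncomputable def fW'' (m : ℕ) (b x : ℝ) : ℝ :=
  -(((m : ℝ) - 1) / (4 * b ^ 3) *
    (cs x ^ (m - 4) * (((m : ℝ) - 2) * (cs x - b) ^ 2 * (cs x + 2 * b) +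
        3 * cs x * (cs x ^ 2 - b ^ 2)) -
      ((m : ℝ) - 4) * x ^ 2 * cs x ^ (m - 6) *
        (((m : ℝ) - 2) * (cs x - b) ^ 2 * (cs x + 2 * b) + 3 * cs x * (cs x ^ 2 - b ^ 2)) -
      x ^ 2 / cs x * cs x ^ (m - 4) *
        (3 * ((m : ℝ) - 2) * (cs x ^ 2 - b ^ 2) + (9 * cs x ^ 2 - 3 * b ^ 2))))

/-- The second derivative of `U` in `S`. -/
noncomputable def K' (m : ℕ) (b M1 _M2 s x : ℝ) : ℝ :=
  cs s ^ (m - 2) * (2 * M1 * s ^ 2 - 2 * ((m : ℝ) - 2)⁻¹ * M1 * (2 - 3 * s ^ 2 - 6 * s * x)) -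
    2 * (m : ℝ)⁻¹ * cs s * fW'' m b x - 2 * (1 - (m : ℝ)⁻¹) * (s / cs s) * fW' m b x

variable {m : ℕ} {b M1 M2 s S x : ℝ}

theorem hasDerivAt_fW' (hm : 6 ≤ m) (h : x ^ 2 < 1) :
    HasDerivAt (fW' m b) (fW'' m b x) x := by
  obtain ⟨k, rfl⟩ : ∃ k, m = k + 6 := ⟨m - 6, by omega⟩
  have hc := hasDerivAt_cs h
  have hP := ((((hc.sub_const b).pow 2).mul (hc.add_const (2 * b))).const_mul
    (((k + 6 : ℕ) : ℝ) - 2)).add ((hc.const_mul 3).mul ((hc.pow 2).sub_const (b ^ 2)))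
  have h1 := ((((hasDerivAt_id x).mul (hasDerivAt_cs_pow h k)).mul hP).const_mul
    ((((k + 6 : ℕ) : ℝ) - 1) / (4 * b ^ 3))).neg
  refine (h1.congr_of_eventuallyEq (Filter.Eventually.of_forall fun y => ?_)).congr_deriv ?_
  · simp [fW', mul_assoc]
  · have := (cs_pos h).ne'
    simp only [fW'', Nat.add_sub_cancel, Pi.mul_apply, Pi.pow_apply, Pi.add_apply,
      show k + 6 - 4 = k + 2 from rfl, Nat.reduceSub, pow_one, id]
    push_cast
    field_simp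
    ring

theorem hasDerivAt_K (hm : 6 ≤ m) (h : x ^ 2 < 1) :
    HasDerivAt (fun y => K m b M1 M2 s y) (K' m b M1 M2 s x) x := by
  have h0 := hasDerivAt_id x
  unfold K R0'
  refine ((((((h0.const_mul (2 * M1 * s ^ 2)).sub
    (((((h0.const_mul 2).const_add (2 * s)).sub (h0.const_mul (3 * s ^ 2))).sub
      ((hasDerivAt_pow 2 x).const_mul (3 * s))).const_mul (2 * ((m : ℝ) - 2)⁻¹ * M1))).sub_const
        _).const_mul (cs s ^ (m - 2))).add_const _).sub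
    ((hasDerivAt_fW' hm h).const_mul (2 * (m : ℝ)⁻¹ * cs s))).sub
    ((hasDerivAt_fW (by omega) h).const_mul (2 * (1 - (m : ℝ)⁻¹) * (s / cs s))) |>.congr_deriv ?_
  simp only [K', Nat.reduceSub, pow_one]
  push_cast
  ring

theorem cs_le_exp (h : x ^ 2 ≤ 1) : cs x ≤ exp (-(x ^ 2 / 2)) := by
  have h1 : cs x ^ 2 ≤ exp (-(x ^ 2 / 2)) ^ 2 := by
    rw [cs_sq h, ← exp_nat_mul]
    push_cast
    linarith [add_one_le_exp (2 * -(x ^ 2 / 2))]
  nlinarith [exp_pos (-(x ^ 2 / 2)), sqrt_nonneg (1 - x ^ 2), show cs x = √(1 - x ^ 2) from rfl]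

theorem cs_pow_le {k : ℕ} (h : x ^ 2 ≤ 1) (hk : 2 * m ≤ 3 * k) :
    cs x ^ k ≤ exp (-((m : ℝ) * x ^ 2 / 3)) := by
  refine (pow_le_pow_left₀ (sqrt_nonneg _) (cs_le_exp h) k).trans ?_
  rw [← exp_nat_mul]
  refine exp_le_exp.2 ?_
  have : 2 * (m : ℝ) ≤ 3 * k := by exact_mod_cast hk
  nlinarith [sq_nonneg x]

theorem cube_mul_exp_le {w : ℝ} (hw : 1 ≤ w) : w ^ 3 * exp (-((w - 1) / 3)) ≤ 500 := by
  have h1 := pow_div_factorial_le_exp (w / 3) (by linarith) 3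
  norm_num [Nat.factorial] at h1
  have h2 : exp (1 / 3 : ℝ) ≤ 3 :=
    exp_bound_div_one_sub_of_interval (by norm_num) (by norm_num) |>.trans (by norm_num)
  have h3 : exp (-((w - 1) / 3)) = exp (1 / 3) / exp (w / 3) := by
    rw [← exp_sub]
    congr 1
    ring
  rw [h3, mul_div_assoc', div_le_iff₀ (exp_pos _)]
  have h4 := exp_pos (1 / 3 : ℝ)
  have h5 : w ^ 3 ≤ 162 * exp (w / 3) := by linarith
  calc w ^ 3 * exp (1 / 3) ≤ (162 * exp (w / 3)) * 3 :=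
        mul_le_mul h5 h2 h4.le (by positivity)
    _ ≤ 500 * exp (w / 3) := by linarith [exp_pos (w / 3)]

theorem Cnst.m_ge (hc : Cnst m b M1 M2) : (100 : ℝ) ≤ m := by exact_mod_cast hc.large

theorem Cnst.b_le_one (hc : Cnst m b M1 M2) : b ≤ 1 := by
  have hm := hc.m_ge
  have : b ^ 2 ≤ 1 := hc.b_hi.trans (by rw [div_le_one (by linarith)]; linarith)
  nlinarith [hc.b_pos]

theorem Cnst.b_ge (hc : Cnst m b M1 M2) : 99 / 100 ≤ b := by
  have hm := hc.m_ge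
  have : (98 / 100 + 1 / 10000 : ℝ) ≤ b ^ 2 := hc.b_lo.trans' (by
    rw [le_div_iff₀ (by linarith)]; nlinarith)
  nlinarith [hc.b_pos]

theorem Cnst.one_sub_b_sq (hc : Cnst m b M1 M2) : 1 - b ^ 2 ≤ (m : ℝ)⁻¹ := by
  have hm := hc.m_ge
  have h1 : 1 - (m : ℝ)⁻¹ ≤ (m : ℝ) / ((m : ℝ) + 1) := by
    rw [le_div_iff₀ (by linarith)]
    have : (m : ℝ)⁻¹ * (m : ℝ) = 1 := inv_mul_cancel₀ (by linarith)
    nlinarith [inv_pos.2 (show (0 : ℝ) < m by linarith)]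
  linarith [hc.b_lo]

theorem Cnst.sum_le (hc : Cnst m b M1 M2) : M1 + M2 ≤ 52 / 100 := by
  rw [hc.sum_eq]
  have hm := hc.m_ge
  have hb : (97 / 100 : ℝ) ≤ b ^ 3 :=
    (show (97 / 100 : ℝ) ≤ (99 / 100) ^ 3 by norm_num).trans
      (pow_le_pow_left₀ (by norm_num) hc.b_ge 3)
  rw [div_le_iff₀ (by positivity)]
  nlinarith

/-- The polynomial factors of `fW'` and `fW''` are small. -/
theorem poly_bound (hc : Cnst m b M1 M2) (hx : x ^ 2 ≤ 1) :
    |((m : ℝ) - 2) * (cs x - b) ^ 2 * (cs x + 2 * b) + 3 * cs x * (cs x ^ 2 - b ^ 2)| ≤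
        7 * (m : ℝ)⁻¹ * (1 + (m : ℝ) * x ^ 2) ^ 2 ∧
      |3 * ((m : ℝ) - 2) * (cs x ^ 2 - b ^ 2) + (9 * cs x ^ 2 - 3 * b ^ 2)| ≤
        12 * (1 + (m : ℝ) * x ^ 2) := by
  have hm := hc.m_ge
  have hm0 : (0 : ℝ) < m := by linarith
  have he : (m : ℝ)⁻¹ * (m : ℝ) = 1 := inv_mul_cancel₀ hm0.ne'
  set e := (m : ℝ)⁻¹
  set w := 1 + (m : ℝ) * x ^ 2 with hw
  have hw1 : 1 ≤ w := le_add_of_nonneg_right (by positivity)
  have he0 : 0 < e := inv_pos.2 hm0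
  have hu0 : 0 ≤ cs x := sqrt_nonneg _
  have hu1 : cs x ≤ 1 := sqrt_le_one.2 (by nlinarith)
  have hb := hc.b_ge
  have hb1 := hc.b_le_one
  have h2 : |cs x ^ 2 - b ^ 2| ≤ e * w := by
    rw [cs_sq hx, hw, mul_add, ← mul_assoc, he, mul_one, one_mul, abs_le]
    have := hc.one_sub_b_sq
    constructor <;> nlinarith
  have h1 : |cs x - b| ≤ |cs x ^ 2 - b ^ 2| * (100 / 99) := by
    rw [show cs x ^ 2 - b ^ 2 = (cs x - b) * (cs x + b) by ring, abs_mul,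
      abs_of_nonneg (show (0 : ℝ) ≤ cs x + b by linarith), mul_assoc]
    exact le_mul_of_one_le_right (abs_nonneg _) (by linarith)
  have h1' : (cs x - b) ^ 2 ≤ (103 / 100) * (e * w) ^ 2 := by
    rw [← sq_abs]
    refine (pow_le_pow_left₀ (abs_nonneg _) (h1.trans (mul_le_mul_of_nonneg_right h2
      (by norm_num))) 2).trans ?_
    rw [mul_pow, mul_comm]
    exact mul_le_mul_of_nonneg_right (by norm_num) (sq_nonneg _)
  have hew : (m : ℝ) * (e * w) = w := by rw [← mul_assoc, mul_comm (m : ℝ), he, one_mul]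
  constructor
  · have ha : |((m : ℝ) - 2) * (cs x - b) ^ 2 * (cs x + 2 * b)| ≤
        (m : ℝ) * ((103 / 100) * (e * w) ^ 2) * 3 := by
      rw [abs_of_nonneg (mul_nonneg (mul_nonneg (by linarith) (sq_nonneg _)) (by linarith))]
      exact mul_le_mul (mul_le_mul (by linarith) h1' (sq_nonneg _) (by linarith)) (by linarith)
        (by linarith) (by positivity)
    have hb' : |3 * cs x * (cs x ^ 2 - b ^ 2)| ≤ 3 * (e * w) := by
      rw [abs_mul, abs_of_nonneg (show (0 : ℝ) ≤ 3 * cs x by linarith)]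
      exact mul_le_mul (show 3 * cs x ≤ 3 by linarith) h2 (abs_nonneg _) (by norm_num)
    refine (abs_add_le _ _).trans ((add_le_add ha hb').trans ?_)
    have : (m : ℝ) * ((103 / 100) * (e * w) ^ 2) * 3 = 309 / 100 * (e * w) * w := by
      linear_combination (309 / 100 * (e * w)) * hew
    rw [this]
    have : e * w ≤ e * w * w := le_mul_of_one_le_right (by positivity) hw1
    nlinarith
  · refine (abs_add_le _ _).trans ?_
    rw [abs_mul, abs_of_nonneg (show (0 : ℝ) ≤ 3 * ((m : ℝ) - 2) by linarith)]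
    have h3 : 3 * ((m : ℝ) - 2) * |cs x ^ 2 - b ^ 2| ≤ 3 * w := by
      rw [← hew, ← mul_assoc 3]
      refine mul_le_mul (by linarith) h2 (abs_nonneg _) (by positivity)
    have h4 : |9 * cs x ^ 2 - 3 * b ^ 2| ≤ 9 := by
      rw [abs_le]
      constructor <;> nlinarith
    linarith

theorem fW_derivs_le (hc : Cnst m b M1 M2) (hx0 : 0 ≤ x) (hx : x ≤ 1 / 2) :
    |fW' m b x| ≤ 2000 * √((m : ℝ)⁻¹) ∧ |fW'' m b x| ≤ 20000 := by
  have hm := hc.m_ge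
  have hm' : 100 ≤ m := hc.large
  have hm0 : (0 : ℝ) < m := by linarith
  have hx2 : x ^ 2 ≤ 1 := by nlinarith
  obtain ⟨hP, hP'⟩ := poly_bound hc hx2
  set w := 1 + (m : ℝ) * x ^ 2 with hw
  have hw1 : 1 ≤ w := le_add_of_nonneg_right (by positivity)
  have hu0 : 0 ≤ cs x := sqrt_nonneg _
  set X := exp (-((m : ℝ) * x ^ 2 / 3)) with hX
  have hX0 : 0 < X := exp_pos _
  have hw3 : w ^ 3 * X ≤ 500 := by
    have := cube_mul_exp_le hw1
    rwa [show (w - 1) / 3 = (m : ℝ) * x ^ 2 / 3 by rw [hw]; ring] at this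
  have hk4 : cs x ^ (m - 4) ≤ X := cs_pow_le hx2 (by omega)
  have hk6 : cs x ^ (m - 6) ≤ X := cs_pow_le hx2 (by omega)
  have hB : 0 ≤ ((m : ℝ) - 1) / (4 * b ^ 3) ∧ ((m : ℝ) - 1) / (4 * b ^ 3) ≤ (m : ℝ) / 3 := by
    have := hc.b_pos
    refine ⟨div_nonneg (by linarith) (by positivity), ?_⟩
    rw [div_le_iff₀ (by positivity)]
    have hb3 : (97 / 100 : ℝ) ≤ b ^ 3 :=
      (show (97 / 100 : ℝ) ≤ (99 / 100) ^ 3 by norm_num).trans
        (pow_le_pow_left₀ (by norm_num) hc.b_ge 3)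
    nlinarith
  have hse : √((m : ℝ)⁻¹) * √(m : ℝ) = 1 := by
    rw [← sqrt_mul (by positivity), inv_mul_cancel₀ hm0.ne', sqrt_one]
  have hxw : x ≤ √((m : ℝ)⁻¹) * w := by
    have h1 : √(m : ℝ) * x ≤ w := by
      nlinarith [sq_nonneg (√(m : ℝ) * x - 1), sq_sqrt hm0.le]
    calc x = √((m : ℝ)⁻¹) * (√(m : ℝ) * x) := by rw [← mul_assoc, hse, one_mul]
      _ ≤ _ := mul_le_mul_of_nonneg_left h1 (sqrt_nonneg _)
  have hmi : (m : ℝ) * (m : ℝ)⁻¹ = 1 := mul_inv_cancel₀ hm0.ne'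
  constructor
  · rw [fW', abs_neg, abs_mul, abs_of_nonneg hB.1, abs_mul, abs_mul, abs_of_nonneg hx0,
      abs_of_nonneg (pow_nonneg hu0 _)]
    calc _ ≤ (m : ℝ) / 3 * (√((m : ℝ)⁻¹) * w * X * (7 * (m : ℝ)⁻¹ * w ^ 2)) := by
          refine mul_le_mul hB.2 (mul_le_mul (mul_le_mul hxw hk4 (by positivity) (by positivity))
            hP (abs_nonneg _) (by positivity)) (by positivity) (by positivity)
      _ = √((m : ℝ)⁻¹) * ((m : ℝ) * (m : ℝ)⁻¹) * (7 / 3) * (w ^ 3 * X) := by ring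
      _ ≤ √((m : ℝ)⁻¹) * 1 * (7 / 3) * (6000 / 7) := by
          rw [hmi]; exact mul_le_mul_of_nonneg_left (by linarith) (by positivity)
      _ = _ := by ring
  · rw [fW'', abs_neg, abs_mul, abs_of_nonneg hB.1]
    have hxm : (m : ℝ) * x ^ 2 ≤ w := by rw [hw]; linarith
    have hc0 : (1 / 2 : ℝ) ≤ cs x := by
      rw [show cs x = √(1 - x ^ 2) from rfl, le_sqrt (by norm_num) (by nlinarith)]
      nlinarith
    have hdiv : x ^ 2 / cs x ≤ 2 * ((m : ℝ)⁻¹ * w) := by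
      rw [div_le_iff₀ (by linarith)]
      have : x ^ 2 ≤ (m : ℝ)⁻¹ * w := by
        rw [← div_eq_inv_mul, le_div_iff₀ hm0]; linarith
      nlinarith [mul_nonneg (inv_nonneg.2 hm0.le) (show (0 : ℝ) ≤ w by linarith)]
    set A := ((m : ℝ) - 2) * (cs x - b) ^ 2 * (cs x + 2 * b) + 3 * cs x * (cs x ^ 2 - b ^ 2)
    set B := 3 * ((m : ℝ) - 2) * (cs x ^ 2 - b ^ 2) + (9 * cs x ^ 2 - 3 * b ^ 2)
    have e1 : |cs x ^ (m - 4) * A| ≤ X * (7 * (m : ℝ)⁻¹ * w ^ 2) := by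
      rw [abs_mul, abs_of_nonneg (pow_nonneg hu0 _)]
      exact mul_le_mul hk4 hP (abs_nonneg _) hX0.le
    have e2 : |((m : ℝ) - 4) * x ^ 2 * cs x ^ (m - 6) * A| ≤ w * X * (7 * (m : ℝ)⁻¹ * w ^ 2) := by
      rw [abs_mul, abs_mul, abs_of_nonneg (pow_nonneg hu0 _), abs_of_nonneg
        (mul_nonneg (by linarith) (sq_nonneg x) : (0 : ℝ) ≤ ((m : ℝ) - 4) * x ^ 2)]
      refine mul_le_mul (mul_le_mul ?_ hk6 (by positivity) (by positivity)) hP (abs_nonneg _)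
        (by positivity)
      nlinarith
    have e3 : |x ^ 2 / cs x * cs x ^ (m - 4) * B| ≤ 2 * ((m : ℝ)⁻¹ * w) * X * (12 * w) := by
      rw [abs_mul, abs_mul, abs_of_nonneg (pow_nonneg hu0 _), abs_of_nonneg
        (div_nonneg (sq_nonneg x) hu0)]
      exact mul_le_mul (mul_le_mul hdiv hk4 (by positivity) (by positivity)) hP' (abs_nonneg _)
        (by positivity)
    have hs : |cs x ^ (m - 4) * A - ((m : ℝ) - 4) * x ^ 2 * cs x ^ (m - 6) * A -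
        x ^ 2 / cs x * cs x ^ (m - 4) * B| ≤ (m : ℝ)⁻¹ * (38 * (w ^ 3 * X)) := by
      refine (abs_sub _ _).trans ((add_le_add ((abs_sub _ _).trans (add_le_add e1 e2)) e3).trans ?_)
      have : w ^ 2 ≤ w ^ 3 := pow_le_pow_right₀ hw1 (by norm_num)
      have h0 : 0 ≤ (m : ℝ)⁻¹ * X := by positivity
      nlinarith [mul_le_mul_of_nonneg_left this h0]
    calc _ ≤ (m : ℝ) / 3 * ((m : ℝ)⁻¹ * (38 * (w ^ 3 * X))) :=
          mul_le_mul hB.2 hs (abs_nonneg _) (by positivity)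
      _ = (m : ℝ) * (m : ℝ)⁻¹ * (38 / 3) * (w ^ 3 * X) := by ring
      _ ≤ _ := by rw [hmi]; linarith

/-- The quadratic bound of `U` near the centre. -/
theorem abs_U_le (hc : Cnst m b M1 M2) {Y : ℝ} (hY : 0 ≤ Y) (hs0 : 0 ≤ s) (hs : s ≤ 1 / 10)
    (hS0 : 0 ≤ S) (hS : S ≤ 9 / 20) (hsY : √(m : ℝ) * s ≤ Y) :
    |U m b M1 M2 s S| ≤ (50000 + 5000 * Y + Y ^ 2) * (m : ℝ)⁻¹ * (S - s) ^ 2 := by
  have hm := hc.m_ge
  have hm' : 100 ≤ m := hc.large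
  have hm0 : (0 : ℝ) < m := by linarith
  set L := (50000 + 5000 * Y + Y ^ 2) * (m : ℝ)⁻¹ with hL
  have hL0 : 0 ≤ L := by positivity
  have hse : √((m : ℝ)⁻¹) * √((m : ℝ)⁻¹) = (m : ℝ)⁻¹ := mul_self_sqrt (by positivity)
  have hss : s ≤ Y * √((m : ℝ)⁻¹) := by
    rw [sqrt_inv, ← div_eq_mul_inv, le_div_iff₀ (sqrt_pos.2 hm0)]
    linarith
  have hc1 : (99 / 100 : ℝ) ≤ cs s := by
    rw [show cs s = √(1 - s ^ 2) from rfl, le_sqrt (by norm_num) (by nlinarith)]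
    nlinarith
  have hc2 : cs s ≤ 1 := sqrt_le_one.2 (by nlinarith)
  have hD : ∀ x ∈ uIcc s S, |K' m b M1 M2 s x| ≤ L := by
    intro x hx
    have hx0 : 0 ≤ x := (le_min hs0 hS0).trans (mem_Icc.1 hx).1
    have hx1 : x ≤ 1 / 2 := (mem_Icc.1 hx).2.trans (max_le (by linarith) (by linarith))
    obtain ⟨hf1, hf2⟩ := fW_derivs_le hc hx0 hx1
    have hM1 : 0 ≤ M1 := le_trans (by norm_num) hc.M1_lo
    have hM1' := hc.M1_hi
    have hs2 : s ^ 2 ≤ Y ^ 2 * (m : ℝ)⁻¹ := by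
      rw [← hse, show Y ^ 2 * (√((m : ℝ)⁻¹) * √((m : ℝ)⁻¹)) = (Y * √((m : ℝ)⁻¹)) ^ 2 by ring]
      exact pow_le_pow_left₀ hs0 hss 2
    have he' : ((m : ℝ) - 2)⁻¹ ≤ 2 * (m : ℝ)⁻¹ := by
      rw [← div_eq_mul_inv, le_div_iff₀ hm0, ← div_eq_inv_mul, div_le_iff₀ (by linarith)]
      linarith
    have he'0 : 0 ≤ ((m : ℝ) - 2)⁻¹ := inv_nonneg.2 (by linarith)
    have t1 : |cs s ^ (m - 2) * (2 * M1 * s ^ 2 -
        2 * ((m : ℝ) - 2)⁻¹ * M1 * (2 - 3 * s ^ 2 - 6 * s * x))| ≤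
        (Y ^ 2 + 4) * (m : ℝ)⁻¹ := by
      rw [abs_mul, abs_of_nonneg (pow_nonneg (by linarith) _ : (0 : ℝ) ≤ cs s ^ (m - 2))]
      refine le_trans (mul_le_of_le_one_left (abs_nonneg _) (pow_le_one₀ (by linarith) hc2)) ?_
      have hb : |2 - 3 * s ^ 2 - 6 * s * x| ≤ 2 := by
        rw [abs_le]; constructor <;> nlinarith
      refine (abs_sub _ _).trans ?_
      rw [abs_of_nonneg (by positivity : (0 : ℝ) ≤ 2 * M1 * s ^ 2), abs_mul,
        abs_of_nonneg (by positivity : (0 : ℝ) ≤ 2 * ((m : ℝ) - 2)⁻¹ * M1)]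
      have u1 : 2 * M1 * s ^ 2 ≤ 1 * (Y ^ 2 * (m : ℝ)⁻¹) :=
        mul_le_mul (by linarith) hs2 (sq_nonneg s) (by norm_num)
      have u2 : 2 * ((m : ℝ) - 2)⁻¹ * M1 * |2 - 3 * s ^ 2 - 6 * s * x| ≤
          2 * (2 * (m : ℝ)⁻¹) * (1 / 2) * 2 :=
        mul_le_mul (mul_le_mul (by linarith) (by linarith) hM1 (by positivity)) hb (abs_nonneg _)
          (by positivity)
      linarith
    have t2 : |2 * (m : ℝ)⁻¹ * cs s * fW'' m b x| ≤ 2 * (m : ℝ)⁻¹ * 20000 := by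
      rw [abs_mul, abs_of_nonneg (by positivity : (0 : ℝ) ≤ 2 * (m : ℝ)⁻¹ * cs s)]
      exact mul_le_mul (mul_le_of_le_one_right (by positivity) hc2) hf2 (abs_nonneg _)
        (by positivity)
    have t3 : |2 * (1 - (m : ℝ)⁻¹) * (s / cs s) * fW' m b x| ≤ 5000 * Y * (m : ℝ)⁻¹ := by
      have hi : (m : ℝ)⁻¹ ≤ 1 := Nat.cast_inv_le_one m
      have hd : s / cs s ≤ Y * √((m : ℝ)⁻¹) * (5 / 4) := by
        rw [div_le_iff₀ (by linarith)]
        have : (0 : ℝ) ≤ Y * √((m : ℝ)⁻¹) := by positivity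
        nlinarith
      have hp0 : (0 : ℝ) ≤ 2 * (1 - (m : ℝ)⁻¹) * (s / cs s) :=
        mul_nonneg (by linarith) (div_nonneg hs0 (by linarith))
      rw [abs_mul, abs_of_nonneg hp0]
      calc _ ≤ 2 * (Y * √((m : ℝ)⁻¹) * (5 / 4)) * (2000 * √((m : ℝ)⁻¹)) := by
            refine mul_le_mul (mul_le_mul ?_ hd (div_nonneg hs0 (by linarith)) (by norm_num)) hf1
              (abs_nonneg _) (by positivity)
            linarith [inv_nonneg.2 hm0.le]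
        _ = _ := by linear_combination (5000 * Y) * hse
    rw [K']
    refine (abs_sub _ _).trans ((add_le_add ((abs_sub _ _).trans (add_le_add t1 t2)) t3).trans ?_)
    rw [hL]
    nlinarith [inv_nonneg.2 hm0.le]
  have hlt : ∀ x ∈ uIcc s S, x ^ 2 < 1 := by
    intro x hx
    have hx0 : 0 ≤ x := (le_min hs0 hS0).trans (mem_Icc.1 hx).1
    have hx1 : x ≤ 1 / 2 := (mem_Icc.1 hx).2.trans (max_le (by linarith) (by linarith))
    nlinarith
  have hs1 : s ^ 2 < 1 := by nlinarith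
  have hK : ∀ x ∈ uIcc s S, |K m b M1 M2 s x| ≤ L * |S - s| := by
    intro x hx
    have h := (convex_uIcc s S).norm_image_sub_le_of_norm_hasDerivWithin_le (C := L)
      (fun y hy => (hasDerivAt_K (b := b) (M1 := M1) (M2 := M2) (s := s) (m := m) (by omega)
        (hlt y hy)).hasDerivWithinAt)
      (fun y hy => by rw [norm_eq_abs]; exact hD y hy) left_mem_uIcc hx
    rw [K_self hc hs1, sub_zero, norm_eq_abs, norm_eq_abs] at h
    exact h.trans (mul_le_mul_of_nonneg_left (abs_sub_left_of_mem_uIcc hx) hL0)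
  have h := (convex_uIcc s S).norm_image_sub_le_of_norm_hasDerivWithin_le (C := L * |S - s|)
    (fun y hy => (hasDerivAt_U (b := b) (M1 := M1) (M2 := M2) (s := s) (m := m) (by omega)
      (hlt y hy)).hasDerivWithinAt)
    (fun y hy => by rw [norm_eq_abs]; exact hK y hy) left_mem_uIcc right_mem_uIcc
  rw [U_self, sub_zero, norm_eq_abs, norm_eq_abs, mul_assoc, abs_mul_abs_self, ← pow_two] at h
  exact h

end Vale.Agent.P237.Petty.Centre
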