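import Vale.Agent.P237.Petty.Centre.Slope
import Mathlib.Analysis.Complex.ExponentialBounds

/-!
# P237: the sign of `U` away from the origin

For `s √m` large, `U` is at least a multiple of `s² (S - s)²` times the circle weight: beyond
`x² = 8 / m` the obstacle weight and its companion decrease, so `K` changes sign at the diagonal,
and the mass of `-K` on `[√(8/m), 3/√m]` pays for the bounded positive part near the origin.
-/

namespace Vale.Agent.P237.Petty.Centre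

open Real Set

/-- The companion of the obstacle weight. -/
noncomputable def sgnG (m : ℕ) (b x : ℝ) : ℝ := x * cs x ^ (m - 3) * (x ^ 2 - (1 - b ^ 2))

/-- The part of `K` free of the obstacle. -/
noncomputable def sgnV (m : ℕ) (M1 M2 s x : ℝ) : ℝ :=
  cs s ^ (m - 2) * R0' m M1 M2 s x + hd' m M1 M2 s

/-- The multiplier of the obstacle weight in `K`. -/
noncomputable def sgnB (m : ℕ) (s x : ℝ) : ℝ :=
  (m : ℝ)⁻¹ * ((m : ℝ) - 2) * ((1 - s ^ 2) / (1 - x ^ 2) * x) - (1 - (m : ℝ)⁻¹) * s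

variable {m : ℕ} {b M1 M2 s x S : ℝ}

theorem sq_le_of_le (hx0 : 0 ≤ x) (hx : x ≤ 9 / 20) : x ^ 2 ≤ 81 / 400 := by nlinarith

theorem cs_le_one (x : ℝ) : cs x ≤ 1 := Real.sqrt_le_one.2 (by nlinarith [sq_nonneg x])

theorem cs_pow_le_exp (h : x ^ 2 ≤ 1) (k : ℕ) : cs x ^ (2 * k) ≤ exp (-((k : ℝ) * x ^ 2)) := by
  rw [pow_mul, cs_sq h, ← mul_neg, exp_nat_mul]
  exact pow_le_pow_left₀ (by linarith) (by linarith [add_one_le_exp (-(x ^ 2))]) k

theorem K_split (hm : 4 ≤ m) (hs : s ^ 2 < 1) (hx : x ^ 2 < 1) :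
    K m b M1 M2 s x = sgnV m M1 M2 s x +
      2 / cs s * (fW m b x * sgnB m s x) -
        3 * (((m : ℝ) - 1) / (2 * b ^ 3)) * (m : ℝ)⁻¹ * cs s * sgnG m b x := by
  obtain ⟨k, rfl⟩ : ∃ k, m = k + 4 := ⟨m - 4, by omega⟩
  have hu := (cs_pos hx).ne'
  have hc := (cs_pos hs).ne'
  have e1 : 1 - x ^ 2 = cs x ^ 2 := (cs_sq hx.le).symm
  have e2 : 1 - s ^ 2 = cs s ^ 2 := (cs_sq hs.le).symm
  have e3 : x ^ 2 - (1 - b ^ 2) = b ^ 2 - cs x ^ 2 := by linarith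
  simp only [K, sgnV, sgnB, sgnG, fW', fW, wPoly, Nat.add_sub_cancel,
    show k + 4 - 2 = k + 2 from rfl, show k + 4 - 3 = k + 1 from rfl, pow_add (cs x) k, pow_one]
  rw [e1, e2, e3]
  field_simp
  ring

namespace Cnst

variable (hc : Cnst m b M1 M2)
include hc

theorem m_ge : (100 : ℝ) ≤ m := by exact_mod_cast hc.large

theorem gap_bounds : 0 ≤ 1 - b ^ 2 ∧ (m : ℝ) * (1 - b ^ 2) ≤ 1 ∧ b ≤ 1 ∧ 9 / 10 ≤ b := by
  have hm := hc.m_ge
  have h1 := hc.b_lo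
  have h2 := hc.b_hi
  have hb := hc.b_pos
  rw [div_le_iff₀ (by linarith)] at h1
  rw [le_div_iff₀ (by linarith)] at h2
  refine ⟨?_, ?_, ?_, ?_⟩ <;> nlinarith

theorem coef_bounds : ((m : ℝ) - 1) / 2 ≤ ((m : ℝ) - 1) / (2 * b ^ 3) ∧
    ((m : ℝ) - 1) / (2 * b ^ 3) ≤ m := by
  have hm := hc.m_ge
  obtain ⟨-, -, h1, h2⟩ := hc.gap_bounds
  have h3 : b ^ 3 ≤ 1 := pow_le_one₀ hc.b_pos.le h1
  have h4 : (9 / 10 : ℝ) ^ 3 ≤ b ^ 3 := pow_le_pow_left₀ (by norm_num) h2 3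
  have h5 : (0 : ℝ) < 2 * b ^ 3 := by nlinarith
  refine ⟨div_le_div_of_nonneg_left (by linarith) h5 (by linarith), ?_⟩
  rw [div_le_iff₀ h5]
  nlinarith

theorem region (hx8 : 8 ≤ (m : ℝ) * x ^ 2) (hx0 : 0 ≤ x) (hx : x ≤ 9 / 20) :
    7 / 8 * x ^ 2 ≤ x ^ 2 - (1 - b ^ 2) ∧ x ^ 2 - (1 - b ^ 2) = b ^ 2 - cs x ^ 2 ∧
      0 < cs x ∧ cs x ≤ b := by
  have hm := hc.m_ge
  obtain ⟨h0, h1, -, -⟩ := hc.gap_bounds
  have hx2 := sq_le_of_le hx0 hx
  have e := cs_sq (show x ^ 2 ≤ 1 by linarith)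
  have h7 : 7 / 8 * x ^ 2 ≤ x ^ 2 - (1 - b ^ 2) := by nlinarith
  refine ⟨h7, by linarith, cs_pos (by linarith), ?_⟩
  refine (pow_le_pow_iff_left₀ (Real.sqrt_nonneg _) hc.b_pos.le two_ne_zero).1 ?_
  show cs x ^ 2 ≤ b ^ 2
  nlinarith

theorem fW'_nonpos (hx8 : 8 ≤ (m : ℝ) * x ^ 2) (hx0 : 0 ≤ x) (hx : x ≤ 9 / 20) :
    fW' m b x ≤ 0 := by
  have hm := hc.m_ge
  have hb := hc.b_pos
  obtain ⟨h7, e, hu, hub⟩ := hc.region hx8 hx0 hx
  obtain ⟨-, -, hb1, -⟩ := hc.gap_bounds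
  have hu1 := cs_le_one x
  have hC : 0 ≤ ((m : ℝ) - 1) / (4 * b ^ 3) := div_nonneg (by linarith) (by positivity)
  set u := cs x
  have key : 0 ≤ ((m : ℝ) - 2) * (u - b) ^ 2 * (u + 2 * b) + 3 * u * (u ^ 2 - b ^ 2) := by
    have h1 : 3 * u * (b + u) * (b + u) ≤ ((m : ℝ) - 2) * (b ^ 2 - u ^ 2) * (u + 2 * b) := by
      have hub' : u * (b + u) ≤ 2 := by nlinarith
      have h6 : 6 ≤ ((m : ℝ) - 2) * (b ^ 2 - u ^ 2) := by nlinarith
      calc 3 * u * (b + u) * (b + u) ≤ 6 * (b + u) :=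
            mul_le_mul_of_nonneg_right (by linarith) (by linarith)
        _ ≤ 6 * (u + 2 * b) := by linarith
        _ ≤ _ := mul_le_mul_of_nonneg_right h6 (by linarith)
    have h2 := mul_le_mul_of_nonneg_left h1 (sub_nonneg.2 hub)
    refine (nonneg_of_mul_nonneg_left ?_ (show 0 < b + u by linarith))
    nlinarith
  unfold fW'
  have : 0 ≤ ((m : ℝ) - 1) / (4 * b ^ 3) * (x * u ^ (m - 4) *
      (((m : ℝ) - 2) * (u - b) ^ 2 * (u + 2 * b) + 3 * u * (u ^ 2 - b ^ 2))) :=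
    mul_nonneg hC (mul_nonneg (mul_nonneg hx0 (pow_nonneg hu.le _)) key)
  linarith

theorem antitone_fW {l : ℝ} (hl0 : 0 ≤ l) (hl : 8 ≤ (m : ℝ) * l ^ 2) :
    AntitoneOn (fW m b) (Icc l (9 / 20)) := by
  have hlt : ∀ y ∈ Icc l (9 / 20), y ^ 2 < 1 := fun y hy => by
    linarith [sq_le_of_le (hl0.trans hy.1) hy.2]
  refine antitoneOn_of_hasDerivWithinAt_nonpos (convex_Icc _ _)
    fW_continuous.continuousOn (fun y hy => (hasDerivAt_fW (by have := hc.large; omega)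
      (hlt y (interior_subset hy))).hasDerivWithinAt) fun y hy => ?_
  have hy' := interior_subset hy
  have hm := hc.m_ge
  exact hc.fW'_nonpos (hl.trans (mul_le_mul_of_nonneg_left
    (pow_le_pow_left₀ hl0 hy'.1 2) (by linarith))) (hl0.trans hy'.1) hy'.2

theorem antitone_sgnG {l : ℝ} (hl0 : 0 ≤ l) (hl : 8 ≤ (m : ℝ) * l ^ 2) :
    AntitoneOn (sgnG m b) (Icc l (9 / 20)) := by
  have hm := hc.m_ge
  obtain ⟨k, hk⟩ : ∃ k, m = k + 5 := ⟨m - 5, by have := hc.large; omega⟩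
  have hlt : ∀ y ∈ Icc l (9 / 20), y ^ 2 < 1 := fun y hy => by
    linarith [sq_le_of_le (hl0.trans hy.1) hy.2]
  have hd : ∀ y ∈ Icc l (9 / 20), HasDerivAt (sgnG m b) (cs y ^ (m - 5) *
      ((3 * y ^ 2 - (1 - b ^ 2)) * cs y ^ 2 -
        ((m : ℝ) - 3) * (y ^ 2 * (y ^ 2 - (1 - b ^ 2))))) y := by
    intro y hy
    subst hk
    have h := ((hasDerivAt_id y).mul (hasDerivAt_cs_pow (hlt y hy) k)).mul
      ((hasDerivAt_pow 2 y).sub_const (1 - b ^ 2))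
    refine (h.congr_of_eventuallyEq (Filter.Eventually.of_forall fun z => ?_)).congr_deriv ?_
    · simp [sgnG]
    · simp only [id_eq, Nat.add_sub_cancel, Pi.mul_apply, pow_add]
      push_cast
      ring
  refine antitoneOn_of_hasDerivWithinAt_nonpos (convex_Icc _ _)
    (fun y hy => (hd y hy).continuousAt.continuousWithinAt)
    (fun y hy => (hd y (interior_subset hy)).hasDerivWithinAt) fun y hy => ?_
  have hy' := interior_subset hy
  have hy8 : 8 ≤ (m : ℝ) * y ^ 2 :=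
    hl.trans (mul_le_mul_of_nonneg_left (pow_le_pow_left₀ hl0 hy'.1 2) (by linarith))
  obtain ⟨h7, -, hu, -⟩ := hc.region hy8 (hl0.trans hy'.1) hy'.2
  obtain ⟨h0, -, -, -⟩ := hc.gap_bounds
  refine mul_nonpos_of_nonneg_of_nonpos (pow_nonneg hu.le _) (sub_nonpos.2 ?_)
  have hu2 : cs y ^ 2 ≤ 1 := pow_le_one₀ hu.le (cs_le_one y)
  calc (3 * y ^ 2 - (1 - b ^ 2)) * cs y ^ 2 ≤ 3 * y ^ 2 * 1 :=
        mul_le_mul (by linarith) hu2 (sq_nonneg _) (by positivity)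
    _ ≤ ((m : ℝ) - 3) * (7 / 8 * y ^ 2) * y ^ 2 := by
        nlinarith [mul_le_mul_of_nonneg_right hy8 (sq_nonneg y), sq_nonneg y]
    _ ≤ _ := by
        have h3 : (0 : ℝ) ≤ (m : ℝ) - 3 := by linarith
        have := mul_le_mul_of_nonneg_left h7 (mul_nonneg h3 (sq_nonneg y))
        linarith

theorem sgnB_le (hs0 : 0 ≤ s) (hs : s ^ 2 < 1) (hx0 : 0 ≤ x) (hxs : x ≤ s) :
    sgnB m s x ≤ -((m : ℝ)⁻¹ * s) ∧ sgnB m s x ≤ x - (1 - (m : ℝ)⁻¹) * s := by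
  have hm := hc.m_ge
  have hx2 : x ^ 2 ≤ s ^ 2 := pow_le_pow_left₀ hx0 hxs 2
  have h : (1 - s ^ 2) / (1 - x ^ 2) * x ≤ x :=
    mul_le_of_le_one_left hx0 ((div_le_one (by linarith)).2 (by linarith))
  have he : (m : ℝ)⁻¹ * (m : ℝ) = 1 := inv_mul_cancel₀ (by linarith)
  have hi : 0 ≤ (m : ℝ)⁻¹ := by positivity
  have hi1 : 0 ≤ (m : ℝ)⁻¹ * ((m : ℝ) - 2) := mul_nonneg hi (by linarith)
  unfold sgnB
  constructor
  · nlinarith [mul_le_mul_of_nonneg_left (h.trans hxs) hi1]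
  · nlinarith [mul_le_mul_of_nonneg_left h hi1, mul_nonneg hi hx0]

theorem le_sgnB (hs0 : 0 ≤ s) (hsx : s ≤ x) (hx : x ^ 2 < 1) :
    -((m : ℝ)⁻¹ * s) ≤ sgnB m s x := by
  have hm := hc.m_ge
  have hx2 : s ^ 2 ≤ x ^ 2 := pow_le_pow_left₀ hs0 hsx 2
  have h : x ≤ (1 - s ^ 2) / (1 - x ^ 2) * x :=
    le_mul_of_one_le_left (hs0.trans hsx) ((one_le_div (by linarith)).2 (by linarith))
  have he : (m : ℝ)⁻¹ * (m : ℝ) = 1 := inv_mul_cancel₀ (by linarith)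
  have hi1 : 0 ≤ (m : ℝ)⁻¹ * ((m : ℝ) - 2) := mul_nonneg (by positivity) (by linarith)
  unfold sgnB
  nlinarith [mul_le_mul_of_nonneg_left (hsx.trans h) hi1]

theorem sgnV_sub (hs0 : 0 ≤ s) (hs : s ^ 2 < 1) (hs8 : 8 ≤ (m : ℝ) * s ^ 2) (hx0 : 0 ≤ x) :
    ∃ a, M1 * s ^ 2 * cs s ^ (m - 2) ≤ a ∧
      sgnV m M1 M2 s x - sgnV m M1 M2 s s = a * (x - s) := by
  have hm := hc.m_ge
  refine ⟨cs s ^ (m - 2) * (2 * M1 * s ^ 2 - 2 * ((m : ℝ) - 2)⁻¹ * M1 *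
    (2 - 3 * s ^ 2 - 3 * s * (x + s))), ?_, by simp only [sgnV, R0']; ring⟩
  rw [mul_comm]
  refine mul_le_mul_of_nonneg_left ?_ (pow_nonneg (cs_pos hs).le _)
  have hM : 0 ≤ M1 := by linarith [hc.M1_lo]
  have h1 : 4 * ((m : ℝ) - 2)⁻¹ ≤ s ^ 2 := by
    rw [← div_eq_mul_inv, div_le_iff₀ (by linarith)]; nlinarith
  have h2 : 2 * ((m : ℝ) - 2)⁻¹ * M1 * (2 - 3 * s ^ 2 - 3 * s * (x + s)) ≤
      2 * ((m : ℝ) - 2)⁻¹ * M1 * 2 := by
    refine mul_le_mul_of_nonneg_left (by nlinarith [mul_nonneg hs0 (add_nonneg hx0 hs0)]) ?_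
    have : (0 : ℝ) ≤ ((m : ℝ) - 2)⁻¹ := inv_nonneg.2 (by linarith)
    positivity
  nlinarith [mul_le_mul_of_nonneg_right h1 hM]

theorem K_sign {l : ℝ} (hl0 : 0 ≤ l) (hl : 8 ≤ (m : ℝ) * l ^ 2) (hsl : l ≤ s) (hs : s ≤ 9 / 20)
    (hx : x ∈ Icc l (9 / 20)) :
    (s ≤ x → M1 * s ^ 2 * cs s ^ (m - 2) * (x - s) ≤ K m b M1 M2 s x) ∧
      (x ≤ s → K m b M1 M2 s x ≤ M1 * s ^ 2 * cs s ^ (m - 2) * (x - s)) := by
  have hm := hc.m_ge
  have hm4 : 4 ≤ m := by have := hc.large; omega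
  have hs0 := hl0.trans hsl
  have hx0 := hl0.trans hx.1
  have hsq : s ^ 2 < 1 := by linarith [sq_le_of_le hs0 hs]
  have hxq : x ^ 2 < 1 := by linarith [sq_le_of_le hx0 hx.2]
  have hs8 : 8 ≤ (m : ℝ) * s ^ 2 :=
    hl.trans (mul_le_mul_of_nonneg_left (pow_le_pow_left₀ hl0 hsl 2) (by linarith))
  have hK0 := K_self hc hsq
  rw [K_split hm4 hsq hsq] at hK0
  rw [K_split hm4 hsq hxq]
  have hBs : sgnB m s s = -((m : ℝ)⁻¹ * s) := by
    rw [sgnB, div_self (by linarith), one_mul, mul_sub, inv_mul_cancel₀ (by linarith)]; ring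
  rw [hBs] at hK0
  obtain ⟨a, ha, hv⟩ := hc.sgnV_sub (M2 := M2) hs0 hsq hs8 hx0
  have hc0 := cs_pos hsq
  have hC : 0 ≤ 3 * (((m : ℝ) - 1) / (2 * b ^ 3)) * (m : ℝ)⁻¹ * cs s := by
    have := hc.b_pos; have : (0 : ℝ) ≤ (m : ℝ) - 1 := by linarith
    positivity
  have h2c : 0 ≤ 2 / cs s := by positivity
  have hes : 0 ≤ (m : ℝ)⁻¹ * s := by positivity
  have hsm : s ∈ Icc l (9 / 20) := ⟨hsl, hs⟩
  have hf := fW_nonneg (t := x) (m := m) (by omega) hc.b_pos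
  constructor
  · intro hsx
    have h1 := mul_le_mul_of_nonneg_left ((mul_le_mul_of_nonneg_left (hc.le_sgnB hs0 hsx hxq) hf).trans'
      (show fW m b s * -((m : ℝ)⁻¹ * s) ≤ fW m b x * -((m : ℝ)⁻¹ * s) by
        nlinarith [mul_le_mul_of_nonneg_right (hc.antitone_fW hl0 hl hsm hx hsx) hes])) h2c
    have h2 := mul_le_mul_of_nonneg_left (hc.antitone_sgnG hl0 hl hsm hx hsx) hC
    have h3 := mul_le_mul_of_nonneg_right ha (sub_nonneg.2 hsx)
    linarith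
  · intro hxs
    have h1 := mul_le_mul_of_nonneg_left ((mul_le_mul_of_nonneg_left (hc.sgnB_le hs0 hsq hx0 hxs).1 hf).trans
      (show fW m b x * -((m : ℝ)⁻¹ * s) ≤ fW m b s * -((m : ℝ)⁻¹ * s) by
        nlinarith [mul_le_mul_of_nonneg_right (hc.antitone_fW hl0 hl hx hsm hxs) hes])) h2c
    have h2 := mul_le_mul_of_nonneg_left (hc.antitone_sgnG hl0 hl hx hsm hxs) hC
    have h3 := mul_le_mul_of_nonneg_right ha (sub_nonneg.2 hxs)
    linarith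

theorem U_ge_right {l : ℝ} (hl0 : 0 ≤ l) (hl : 8 ≤ (m : ℝ) * l ^ 2) (hsl : l ≤ s) (hs : s ≤ 9 / 20)
    (hS : S ∈ Icc l (9 / 20)) :
    M1 / 2 * s ^ 2 * cs s ^ (m - 2) * (S - s) ^ 2 ≤ U m b M1 M2 s S := by
  have hm4 : 4 ≤ m := by have := hc.large; omega
  set h := fun y => U m b M1 M2 s y - M1 / 2 * s ^ 2 * cs s ^ (m - 2) * (y - s) ^ 2 with hh
  have hd : ∀ y ∈ Icc l (9 / 20), HasDerivAt h
      (K m b M1 M2 s y - M1 * s ^ 2 * cs s ^ (m - 2) * (y - s)) y := by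
    intro y hy
    refine ((hasDerivAt_U hm4 (by linarith [sq_le_of_le (hl0.trans hy.1) hy.2])).sub
      ((((hasDerivAt_id y).sub_const s).pow 2).const_mul
        (M1 / 2 * s ^ 2 * cs s ^ (m - 2)))).congr_deriv ?_
    simp
    ring
  have h0 : h s = 0 := by simp [hh, U_self]
  suffices h s ≤ h S by rw [h0] at this; simp only [hh] at this; linarith
  rcases le_total s S with hsS | hsS
  · have hsub : Icc s S ⊆ Icc l (9 / 20) := Icc_subset_Icc hsl hS.2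
    refine monotoneOn_of_hasDerivWithinAt_nonneg (convex_Icc s S)
      (fun y hy => (hd y (hsub hy)).continuousAt.continuousWithinAt)
      (fun y hy => (hd y (hsub (interior_subset hy))).hasDerivWithinAt) (fun y hy => ?_)
      (left_mem_Icc.2 hsS) (right_mem_Icc.2 hsS) hsS
    exact sub_nonneg.2 ((hc.K_sign hl0 hl hsl hs (hsub (interior_subset hy))).1
      (interior_subset hy).1)
  · have hsub : Icc S s ⊆ Icc l (9 / 20) := Icc_subset_Icc hS.1 hs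
    refine antitoneOn_of_hasDerivWithinAt_nonpos (convex_Icc S s)
      (fun y hy => (hd y (hsub hy)).continuousAt.continuousWithinAt)
      (fun y hy => (hd y (hsub (interior_subset hy))).hasDerivWithinAt) (fun y hy => ?_)
      (left_mem_Icc.2 hsS) (right_mem_Icc.2 hsS) hsS
    exact sub_nonpos.2 ((hc.K_sign hl0 hl hsl hs (hsub (interior_subset hy))).2
      (interior_subset hy).2)

/-- The weights at the point `s` are exponentially small. -/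
theorem weights_le {Y : ℝ} (hY2 : Y ^ 2 ≤ (m : ℝ) * s ^ 2) (hs0 : 0 ≤ s)
    (hs : s ≤ 1 / 10) :
    (m : ℝ) * s ^ 4 * cs s ^ (m - 4) * Y ^ 2 ≤ 8000 * s ^ 2 ∧
      (m : ℝ) ^ 2 * s ^ 4 * cs s ^ (m - 4) ≤ 100 := by
  have hm := hc.m_ge
  have hsq : s ^ 2 ≤ 1 := by nlinarith
  set z := (m : ℝ) * s ^ 2 with hz
  have hz0 : 0 ≤ z := by positivity
  obtain ⟨j, hj⟩ : ∃ j, j = (m - 4) / 2 := ⟨_, rfl⟩
  have hj2 : 2 * j ≤ m - 4 := by omega
  have hjm : (m : ℝ) / 4 ≤ j := by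
    have : m ≤ 4 * j := by have := hc.large; omega
    have : (m : ℝ) ≤ 4 * j := by exact_mod_cast this
    linarith
  have h1 : cs s ^ (m - 4) ≤ exp (-(z / 4)) := by
    refine ((pow_le_pow_of_le_one (Real.sqrt_nonneg _) (cs_le_one s) hj2).trans
      (cs_pow_le_exp hsq j)).trans (exp_le_exp.2 ?_)
    rw [hz]
    nlinarith [mul_le_mul_of_nonneg_right hjm (sq_nonneg s)]
  have h2 : (z / 4) ^ 2 / 2 ≤ exp (z / 4) ∧ (z / 4) ^ 3 / 6 ≤ exp (z / 4) := by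
    constructor
    · have := quadratic_le_exp_of_nonneg (show 0 ≤ z / 4 by positivity); linarith
    · have h := pow_div_factorial_le_exp (z / 4) (show 0 ≤ z / 4 by positivity) 3
      norm_num [Nat.factorial] at h
      linarith
  have h3 : exp (-(z / 4)) * exp (z / 4) = 1 := by rw [← exp_add]; simp
  have h4 : z ^ 2 * cs s ^ (m - 4) ≤ 100 := by
    refine (mul_le_mul_of_nonneg_left h1 (sq_nonneg z)).trans ?_
    nlinarith [exp_pos (-(z / 4)), h2.1]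
  have h5 : z ^ 2 * cs s ^ (m - 4) * z ≤ 400 := by
    have := mul_le_mul_of_nonneg_left h1 (pow_nonneg hz0 3)
    nlinarith [exp_pos (-(z / 4)), h2.2]
  have hu : 0 ≤ cs s ^ (m - 4) := pow_nonneg (Real.sqrt_nonneg _) _
  refine ⟨?_, ?_⟩
  · have h6 : (m : ℝ) * s ^ 4 * cs s ^ (m - 4) * Y ^ 2 ≤ (m : ℝ) * s ^ 4 * cs s ^ (m - 4) * z :=
      mul_le_mul_of_nonneg_left hY2 (by positivity)
    have e : (m : ℝ) * s ^ 4 * cs s ^ (m - 4) * z = z ^ 2 * cs s ^ (m - 4) * s ^ 2 := by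
      rw [hz]; ring
    rw [e] at h6
    nlinarith [mul_le_mul_of_nonneg_right h4 (sq_nonneg s)]
  · refine le_trans (le_of_eq ?_) h4
    rw [hz]; ring

theorem fW_diag_le (hs8 : 8 ≤ (m : ℝ) * s ^ 2) (hs0 : 0 ≤ s) (hs : s ≤ 1 / 10) :
    fW m b s ≤ (m : ℝ) * (3 * (cs s ^ (m - 4) * cs s * s ^ 4)) := by
  have hm := hc.m_ge
  obtain ⟨hg0, hg1, hb1, hb9⟩ := hc.gap_bounds
  obtain ⟨h7, e7, hu, hub⟩ := hc.region hs8 hs0 (by linarith)
  obtain ⟨-, hC⟩ := hc.coef_bounds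
  have hu1 := cs_le_one s
  have he2 : cs s ^ (m - 2) = cs s ^ (m - 4) * cs s ^ 2 := by
    rw [← pow_add]; congr 1; have := hc.large; omega
  have hw : 0 ≤ cs s ^ (m - 4) := pow_nonneg hu.le _
  have h1 : (b - cs s) * (b + cs s) ≤ s ^ 2 := by
    rw [show (b - cs s) * (b + cs s) = b ^ 2 - cs s ^ 2 by ring]; linarith
  have h2 : b - cs s ≤ 10 / 9 * s ^ 2 := by
    have := mul_le_mul_of_nonneg_left (show 9 / 10 ≤ b + cs s by linarith) (sub_nonneg.2 hub)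
    linarith
  have h3 : (cs s - b) ^ 2 ≤ 2 * s ^ 4 := by
    have := pow_le_pow_left₀ (sub_nonneg.2 hub) h2 2
    have h4 : 0 ≤ s ^ 4 := by positivity
    linarith
  have h5 : cs s * ((cs s - b) ^ 2 * (cs s + 2 * b)) ≤ 1 * (2 * s ^ 4 * 3) :=
    mul_le_mul hu1 (mul_le_mul h3 (by linarith) (by linarith [hc.b_pos]) (by positivity))
      (mul_nonneg (sq_nonneg _) (by linarith [hc.b_pos])) zero_le_one
  have e : fW m b s = ((m : ℝ) - 1) / (2 * b ^ 3) *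
      (cs s ^ (m - 4) * cs s * (cs s * ((cs s - b) ^ 2 * (cs s + 2 * b)) / 2)) := by
    simp only [fW, wPoly]; rw [he2]; ring
  rw [e]
  have hpos : 0 ≤ cs s ^ (m - 4) * cs s := mul_nonneg hw hu.le
  refine mul_le_mul hC ((mul_le_mul_of_nonneg_left (show _ ≤ 3 * s ^ 4 by linarith) hpos).trans
    (le_of_eq (by ring))) (mul_nonneg hpos (div_nonneg (mul_nonneg hu.le
      (mul_nonneg (sq_nonneg _) (by linarith [hc.b_pos]))) (by norm_num))) (by linarith)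

theorem sgnG_diag (hs8 : 8 ≤ (m : ℝ) * s ^ 2) (hs0 : 0 ≤ s) (hs : s ≤ 1 / 10) :
    0 ≤ sgnG m b s ∧ sgnG m b s ≤ cs s ^ (m - 4) * s ^ 3 := by
  obtain ⟨hg0, -, -, -⟩ := hc.gap_bounds
  obtain ⟨h7, -, hu, -⟩ := hc.region hs8 hs0 (by linarith)
  have he3 : cs s ^ (m - 3) = cs s ^ (m - 4) * cs s := by
    rw [← pow_succ]; congr 1; have := hc.large; omega
  have hw : 0 ≤ cs s ^ (m - 4) := pow_nonneg hu.le _
  have h0 : 0 ≤ s ^ 2 - (1 - b ^ 2) := le_trans (by positivity) h7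
  refine ⟨mul_nonneg (mul_nonneg hs0 (pow_nonneg hu.le _)) h0, ?_⟩
  rw [sgnG, he3]
  calc s * (cs s ^ (m - 4) * cs s) * (s ^ 2 - (1 - b ^ 2)) ≤ s * cs s ^ (m - 4) * s ^ 2 :=
        mul_le_mul (mul_le_mul_of_nonneg_left (mul_le_of_le_one_right hw (cs_le_one s)) hs0)
          (by linarith) h0 (mul_nonneg hs0 hw)
    _ = _ := by ring

theorem sgnV_diag_le (hs8 : 8 ≤ (m : ℝ) * s ^ 2) (hs0 : 0 ≤ s) (hs : s ≤ 1 / 10) :
    sgnV m M1 M2 s s ≤ 4 * (cs s ^ (m - 4) * s ^ 3) := by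
  have hm := hc.m_ge
  have hm4 : 4 ≤ m := by have := hc.large; omega
  obtain ⟨-, -, hu, -⟩ := hc.region hs8 hs0 (by linarith)
  have hsq : s ^ 2 < 1 := by linarith [sq_le_of_le hs0 (by linarith)]
  have hK0 := K_self hc hsq
  rw [K_split hm4 hsq hsq] at hK0
  have hBs : sgnB m s s = -((m : ℝ)⁻¹ * s) := by
    rw [sgnB, div_self (by linarith), one_mul, mul_sub, inv_mul_cancel₀ (by linarith)]; ring
  rw [hBs] at hK0
  obtain ⟨hC0, hC⟩ := hc.coef_bounds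
  have hi0 : (0 : ℝ) ≤ (m : ℝ)⁻¹ := by positivity
  have hinv : (m : ℝ)⁻¹ * m = 1 := inv_mul_cancel₀ (by linarith)
  obtain ⟨hG0, hG⟩ := hc.sgnG_diag hs8 hs0 hs
  have hF := hc.fW_diag_le hs8 hs0 hs
  have hA : 2 / cs s * (fW m b s * ((m : ℝ)⁻¹ * s)) ≤ 6 * (cs s ^ (m - 4) * s ^ 5) :=
    calc 2 / cs s * (fW m b s * ((m : ℝ)⁻¹ * s)) ≤
          2 / cs s * ((m : ℝ) * (3 * (cs s ^ (m - 4) * cs s * s ^ 4)) * ((m : ℝ)⁻¹ * s)) :=
          mul_le_mul_of_nonneg_left (mul_le_mul_of_nonneg_right hF (mul_nonneg hi0 hs0))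
            (by positivity)
      _ = _ := by field_simp; ring
  have hB : 3 * (((m : ℝ) - 1) / (2 * b ^ 3)) * (m : ℝ)⁻¹ * cs s * sgnG m b s ≤
      3 * (cs s ^ (m - 4) * s ^ 3) := by
    have h1 : 3 * (((m : ℝ) - 1) / (2 * b ^ 3)) * (m : ℝ)⁻¹ ≤ 3 := by
      calc 3 * (((m : ℝ) - 1) / (2 * b ^ 3)) * (m : ℝ)⁻¹ ≤ 3 * (m : ℝ) * (m : ℝ)⁻¹ :=
            mul_le_mul_of_nonneg_right (by linarith) hi0
        _ = 3 := by rw [mul_assoc, mul_comm (m : ℝ), hinv, mul_one]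
    calc 3 * (((m : ℝ) - 1) / (2 * b ^ 3)) * (m : ℝ)⁻¹ * cs s * sgnG m b s
        ≤ 3 * 1 * (cs s ^ (m - 4) * s ^ 3) :=
          mul_le_mul (mul_le_mul h1 (cs_le_one s) hu.le (by norm_num)) hG hG0 (by norm_num)
      _ = _ := by ring
  have h2 : s ^ 5 ≤ 1 / 100 * s ^ 3 := by
    rw [show s ^ 5 = s ^ 2 * s ^ 3 by ring]
    refine mul_le_mul_of_nonneg_right ?_ (pow_nonneg hs0 3)
    have := pow_le_pow_left₀ hs0 hs 2
    linarith
  have h3 := mul_le_mul_of_nonneg_left h2 (pow_nonneg hu.le (m - 4))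
  have h4 : 0 ≤ cs s ^ (m - 4) * s ^ 3 := mul_nonneg (pow_nonneg hu.le _) (pow_nonneg hs0 3)
  linarith

theorem sgnV_le {Y : ℝ} (hY8 : 8 ≤ Y ^ 2) (hY2 : Y ^ 2 ≤ (m : ℝ) * s ^ 2)
    (hs0 : 0 < s) (hs : s ≤ 1 / 10) (hx0 : 0 ≤ x) (hxs : x ≤ s) :
    sgnV m M1 M2 s x * (m : ℝ) * Y ^ 2 ≤ 100000 * s := by
  have hm := hc.m_ge
  have hs8 := hY8.trans hY2
  have hsq : s ^ 2 < 1 := by linarith [sq_le_of_le hs0.le (by linarith)]
  obtain ⟨a, ha, hv⟩ := hc.sgnV_sub (M2 := M2) hs0.le hsq hs8 hx0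
  have hu := cs_pos hsq
  have ha0 : 0 ≤ a := le_trans (by have := hc.M1_lo; positivity) ha
  have h1 : sgnV m M1 M2 s x ≤ 4 * (cs s ^ (m - 4) * s ^ 3) := by
    linarith [mul_nonneg ha0 (sub_nonneg.2 hxs), hc.sgnV_diag_le (M2 := M2) hs8 hs0.le hs]
  refine (mul_le_mul_of_nonneg_right (mul_le_mul_of_nonneg_right h1 (by linarith))
    (sq_nonneg Y)).trans (le_of_mul_le_mul_right ?_ hs0)
  have h9 := (hc.weights_le hY2 hs0.le hs).1
  calc 4 * (cs s ^ (m - 4) * s ^ 3) * (m : ℝ) * Y ^ 2 * s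
      = 4 * ((m : ℝ) * s ^ 4 * cs s ^ (m - 4) * Y ^ 2) := by ring
    _ ≤ 4 * (8000 * s ^ 2) := by linarith
    _ ≤ _ := by linarith [sq_nonneg s]

/-- The bounded positive part near the origin. -/
theorem K_near {V : ℝ} (hs0 : 0 ≤ s) (hsq : s ^ 2 < 1) (hx0 : 0 ≤ x) (hxs : x ≤ s)
    (hx : x ≤ 3 / √(m : ℝ)) (hV : sgnV m M1 M2 s x ≤ V) :
    K m b M1 M2 s x ≤ 9 / ((m : ℝ) * √(m : ℝ)) + V := by
  have hm := hc.m_ge
  have hxq : x ^ 2 < 1 := lt_of_le_of_lt (pow_le_pow_left₀ hx0 hxs 2) hsq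
  rw [K_split (by have := hc.large; omega) hsq hxq]
  obtain ⟨hC0, hC⟩ := hc.coef_bounds
  obtain ⟨hg0, hg1, -, -⟩ := hc.gap_bounds
  have hi0 : (0 : ℝ) ≤ (m : ℝ)⁻¹ := by positivity
  have hc0 := cs_pos hsq
  have h1 : 2 / cs s * (fW m b x * sgnB m s x) ≤ 0 :=
    mul_nonpos_of_nonneg_of_nonpos (by positivity) (mul_nonpos_of_nonneg_of_nonpos
      (fW_nonneg (by have := hc.large; omega) hc.b_pos)
      ((hc.sgnB_le hs0 hsq hx0 hxs).1.trans (by linarith [mul_nonneg hi0 hs0])))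
  have h2 : -(x * (1 - b ^ 2)) ≤ sgnG m b x := by
    have hu0 : 0 ≤ cs x ^ (m - 3) := pow_nonneg (Real.sqrt_nonneg _) _
    have hu1 : cs x ^ (m - 3) ≤ 1 := pow_le_one₀ (Real.sqrt_nonneg _) (cs_le_one x)
    have h3 := mul_nonneg (mul_nonneg hx0 hu0) (sq_nonneg x)
    have h4 := mul_le_mul_of_nonneg_left hu1 (mul_nonneg hx0 hg0)
    unfold sgnG
    linarith
  set k := 3 * (((m : ℝ) - 1) / (2 * b ^ 3)) * (m : ℝ)⁻¹ * cs s with hk
  have hk0 : 0 ≤ k :=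
    mul_nonneg (mul_nonneg (mul_nonneg (by norm_num) (le_trans (by linarith) hC0)) hi0) hc0.le
  have hk3 : k ≤ 3 := by
    calc k ≤ 3 * (m : ℝ) * (m : ℝ)⁻¹ * 1 :=
          mul_le_mul (mul_le_mul_of_nonneg_right (by linarith) hi0) (cs_le_one s) hc0.le
            (by positivity)
      _ = 3 := by rw [mul_one, mul_assoc, mul_inv_cancel₀ (by linarith : (m : ℝ) ≠ 0), mul_one]
  have h3 : -(k * sgnG m b x) ≤ 9 / ((m : ℝ) * √(m : ℝ)) := by
    calc -(k * sgnG m b x) ≤ k * (x * (1 - b ^ 2)) := by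
          linarith [mul_le_mul_of_nonneg_left h2 hk0]
      _ ≤ 3 * (3 / √(m : ℝ) * (1 / (m : ℝ))) := by
          refine mul_le_mul hk3 (mul_le_mul hx ?_ hg0 (by positivity)) (mul_nonneg hx0 hg0)
            (by norm_num)
          rw [le_div_iff₀ (by linarith)]; linarith
      _ = _ := by ring
  linarith

/-- The obstacle weight on the window. -/
theorem fW_window_ge (hx8 : 8 ≤ (m : ℝ) * x ^ 2) (hx9 : (m : ℝ) * x ^ 2 ≤ 9) (hx0 : 0 ≤ x) :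
    1 / 400000 / (m : ℝ) ≤ fW m b x := by
  have hm := hc.m_ge
  have hx2 : x ^ 2 ≤ 9 / 100 := by
    have := mul_le_mul_of_nonneg_right hm (sq_nonneg x); linarith
  have hx45 : x ≤ 9 / 20 :=
    (pow_le_pow_iff_left₀ hx0 (by norm_num) two_ne_zero).1 (by norm_num; linarith)
  obtain ⟨h7, e7, hu, hub⟩ := hc.region hx8 hx0 hx45
  obtain ⟨hC0, -⟩ := hc.coef_bounds
  obtain ⟨-, -, hb1, hb9⟩ := hc.gap_bounds
  have hbase : exp (-(x ^ 2 * (100 / 91))) ≤ 1 - x ^ 2 := by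
    rw [exp_neg, inv_le_comm₀ (exp_pos _) (by linarith)]
    refine le_trans ?_ (add_one_le_exp _)
    rw [inv_le_iff_one_le_mul₀ (by linarith)]
    have := mul_le_mul_of_nonneg_right hx2 (sq_nonneg x)
    linarith
  have hexp : (1 : ℝ) / 102400 ≤ (cs x ^ (m - 2)) ^ 2 := by
    rw [← pow_mul, mul_comm (m - 2) 2, pow_mul, cs_sq (by linarith)]
    refine le_trans ?_ (pow_le_pow_left₀ (exp_pos _).le hbase _)
    rw [← exp_nat_mul]
    refine le_trans ?_ (exp_le_exp.2 (show -(10 : ℝ) ≤ _ by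
      have hm2 : ((m - 2 : ℕ) : ℝ) ≤ m := by exact_mod_cast Nat.sub_le m 2
      have := mul_le_mul_of_nonneg_right hm2 (sq_nonneg x)
      linarith))
    rw [show -(10 : ℝ) = ((10 : ℕ) : ℝ) * (-1) by norm_num, exp_nat_mul, exp_neg, inv_pow,
      one_div]
    refine inv_anti₀ (by positivity) ?_
    refine (pow_le_pow_left₀ (exp_pos 1).le exp_one_lt_d9.le 10).trans ?_
    norm_num
  have hroot : (1 : ℝ) / 320 ≤ cs x ^ (m - 2) :=
    (pow_le_pow_iff_left₀ (by norm_num) (pow_nonneg hu.le _) two_ne_zero).1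
      (le_trans (by norm_num) hexp)
  have hd : 3 / (m : ℝ) ≤ b - cs x := by
    rw [div_le_iff₀ (by linarith)]
    have h1 : b ^ 2 - cs x ^ 2 ≤ 2 * (b - cs x) := by
      rw [show b ^ 2 - cs x ^ 2 = (b + cs x) * (b - cs x) by ring]
      exact mul_le_mul_of_nonneg_right (by linarith [cs_le_one x]) (sub_nonneg.2 hub)
    have h2 := mul_le_mul_of_nonneg_left (h7.trans (e7.le.trans h1))
      (show (0 : ℝ) ≤ m by linarith)
    linarith
  have hd2 : (3 / (m : ℝ)) ^ 2 ≤ (cs x - b) ^ 2 := by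
    rw [show (cs x - b) ^ 2 = (b - cs x) ^ 2 by ring]
    exact pow_le_pow_left₀ (by positivity) hd 2
  have e : fW m b x = ((m : ℝ) - 1) / (2 * b ^ 3) *
      (cs x ^ (m - 2) * ((cs x - b) ^ 2 * (cs x + 2 * b)) / 2) := by
    simp only [fW, wPoly]; ring
  rw [e]
  calc 1 / 400000 / (m : ℝ) ≤ (m : ℝ) / 4 * (1 / 320 * ((3 / (m : ℝ)) ^ 2 * 1) / 2) := by
        rw [show (m : ℝ) / 4 * (1 / 320 * ((3 / (m : ℝ)) ^ 2 * 1) / 2) = 9 / 2560 / (m : ℝ) by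
          field_simp; ring]
        exact div_le_div_of_nonneg_right (by norm_num) (by linarith)
    _ ≤ _ := by
        refine mul_le_mul (le_trans (by linarith) hC0) (div_le_div_of_nonneg_right
          (mul_le_mul hroot (mul_le_mul hd2 (by linarith) zero_le_one (sq_nonneg _))
            (by positivity) (pow_nonneg hu.le _)) (by norm_num)) (by positivity)
          (le_trans (by linarith) hC0)

/-- The negative part on the window. -/
theorem K_window {V : ℝ} (hs0 : 0 ≤ s) (hsq : s ^ 2 < 1) (hx8 : 8 ≤ (m : ℝ) * x ^ 2)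
    (hx9 : (m : ℝ) * x ^ 2 ≤ 9) (hx0 : 0 ≤ x) (hxs : x ≤ 1 / 4 * s)
    (hV : sgnV m M1 M2 s x ≤ V) :
    K m b M1 M2 s x ≤ V - 1 / 1000000 * (s / (m : ℝ)) := by
  have hm := hc.m_ge
  have hxs' : x ≤ s := by linarith
  have hxq : x ^ 2 < 1 := lt_of_le_of_lt (pow_le_pow_left₀ hx0 hxs' 2) hsq
  rw [K_split (by have := hc.large; omega) hsq hxq]
  have hx45 : x ≤ 9 / 20 := by
    have : x ^ 2 ≤ 9 / 100 := by
      have := mul_le_mul_of_nonneg_right hm (sq_nonneg x); linarith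
    exact (pow_le_pow_iff_left₀ hx0 (by norm_num) two_ne_zero).1 (by norm_num; linarith)
  obtain ⟨h7, -, hu, -⟩ := hc.region hx8 hx0 hx45
  obtain ⟨hC0, -⟩ := hc.coef_bounds
  have hi0 : (0 : ℝ) ≤ (m : ℝ)⁻¹ := by positivity
  have hc0 := cs_pos hsq
  have hG : 0 ≤ sgnG m b x := mul_nonneg (mul_nonneg hx0 (pow_nonneg hu.le _))
    (le_trans (by positivity) h7)
  have hB : sgnB m s x ≤ -(1 / 2 * s) := by
    refine (hc.sgnB_le hs0 hsq hx0 hxs').2.trans ?_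
    have h1 : (m : ℝ)⁻¹ ≤ 1 / 100 := by rw [one_div]; exact inv_anti₀ (by norm_num) hm
    have := mul_le_mul_of_nonneg_right h1 hs0
    linarith
  have hF := hc.fW_window_ge hx8 hx9 hx0
  have hf : 0 ≤ fW m b x := le_trans (by positivity) hF
  have h3 : (2 : ℝ) ≤ 2 / cs s := by rw [le_div_iff₀ hc0]; linarith [cs_le_one s]
  have h1 : 2 / cs s * (fW m b x * sgnB m s x) ≤ -(1 / 1000000 * (s / (m : ℝ))) := by
    have h2 : fW m b x * sgnB m s x ≤ -(1 / 2 * s * (1 / 400000 / (m : ℝ))) := by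
      have := mul_le_mul_of_nonneg_left hB hf
      have := mul_le_mul_of_nonneg_left hF (show 0 ≤ 1 / 2 * s by positivity)
      linarith
    have h7 : (0 : ℝ) ≤ s / (m : ℝ) := by positivity
    have e : 1 / 2 * s * (1 / 400000 / (m : ℝ)) = 1 / 800000 * (s / (m : ℝ)) := by ring
    have h6 := mul_le_mul_of_nonpos_right h3 (show fW m b x * sgnB m s x ≤ 0 by linarith)
    linarith
  have h2 : 0 ≤ 3 * (((m : ℝ) - 1) / (2 * b ^ 3)) * (m : ℝ)⁻¹ * cs s * sgnG m b x :=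
    mul_nonneg (mul_nonneg (mul_nonneg (mul_nonneg (by norm_num) (le_trans (by linarith) hC0)) hi0)
      hc0.le) hG
  linarith

omit hc in
theorem left_margin {ρ t M V N : ℝ} (hρ : 0 < ρ) (hρ2 : ρ ^ 2 = M) (hy : 1000000000 ≤ ρ * t)
    (hN : N = 1 / 1000000 * (t / M)) (hVN : V ≤ N / 1000) :
    10 / M ^ 2 ≤ 17 / 100 / ρ * (N - V) - (9 / (M * ρ) + V) * (283 / 100 / ρ) := by
  subst hρ2 hN
  rw [← sub_nonneg, show 17 / 100 / ρ * (1 / 1000000 * (t / ρ ^ 2) - V) -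
      (9 / (ρ ^ 2 * ρ) + V) * (283 / 100 / ρ) - 10 / (ρ ^ 2) ^ 2 =
      (17 / 100000000 * (ρ * t) - 3 * (V * ρ ^ 3) - 3547 / 100) / (ρ ^ 2) ^ 2 by field_simp; ring]
  refine div_nonneg ?_ (by positivity)
  have h1 : V * ρ ^ 3 ≤ 1 / 1000000000 * (ρ * t) := by
    calc V * ρ ^ 3 ≤ 1 / 1000000 * (t / ρ ^ 2) / 1000 * ρ ^ 3 :=
          mul_le_mul_of_nonneg_right hVN (by positivity)
      _ = _ := by field_simp; ring
  linarith

theorem U_window {Y : ℝ} (hY : 1000000000 ≤ Y) (hY2 : Y ^ 2 ≤ (m : ℝ) * s ^ 2) (hs0 : 0 < s)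
    (hs : s ≤ 1 / 10) (hS0 : 0 ≤ S) (hS : (m : ℝ) * S ^ 2 ≤ 8) :
    10 / (m : ℝ) ^ 2 ≤ U m b M1 M2 s S ∧ S ≤ s := by
  have hm := hc.m_ge
  have hm4 : 4 ≤ m := by have := hc.large; omega
  have hsq : s ^ 2 < 1 := by linarith [sq_le_of_le hs0.le (by linarith)]
  set ρ := √(m : ℝ) with hρ
  have hρ2 : ρ ^ 2 = m := Real.sq_sqrt (by linarith)
  have hρ0 : 0 < ρ := Real.sqrt_pos.2 (by linarith)
  have hy : 1000000000 ≤ ρ * s := by
    refine hY.trans ((pow_le_pow_iff_left₀ (by linarith) (by positivity) two_ne_zero).1 ?_)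
    rw [mul_pow, hρ2]; exact hY2
  set x0 := √(8 : ℝ) / ρ with hx0
  set x1 := 3 / ρ with hx1
  have h8 : √(8 : ℝ) ≤ 283 / 100 := Real.sqrt_le_iff.2 ⟨by norm_num, by norm_num⟩
  have hx08 : (m : ℝ) * x0 ^ 2 = 8 := by
    rw [hx0, div_pow, hρ2, Real.sq_sqrt (by norm_num), mul_div_cancel₀ _ (by linarith)]
  have hx00 : 0 ≤ x0 := by positivity
  have hx19 : (m : ℝ) * x1 ^ 2 = 9 := by
    rw [hx1, div_pow, hρ2, mul_div_cancel₀ _ (by linarith)]; norm_num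
  have hx01 : x0 ≤ x1 := div_le_div_of_nonneg_right (by linarith) hρ0.le
  have hx14 : x1 ≤ 1 / 4 * s := by rw [hx1, div_le_iff₀ hρ0]; linarith
  have hx1s : x1 ≤ s := by linarith
  have hSx : S ≤ x0 := by
    refine (pow_le_pow_iff_left₀ hS0 hx00 two_ne_zero).1 ?_
    exact le_of_mul_le_mul_left (by linarith) (show (0 : ℝ) < m by linarith)
  set V := 100000 * s / ((m : ℝ) * Y ^ 2) with hVdef
  have hV : ∀ y, 0 ≤ y → y ≤ s → sgnV m M1 M2 s y ≤ V := fun y hy0 hys => by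
    rw [hVdef, le_div_iff₀ (by positivity), ← mul_assoc]
    exact hc.sgnV_le (by nlinarith) hY2 hs0 hs hy0 hys
  have hdU : ∀ y, 0 ≤ y → y ≤ s →
      HasDerivAt (fun y => U m b M1 M2 s y) (K m b M1 M2 s y) y := fun y hy0 hys =>
    hasDerivAt_U hm4 (lt_of_le_of_lt (pow_le_pow_left₀ hy0 hys 2) hsq)
  have hstep : ∀ l r c : ℝ, 0 ≤ l → l ≤ r → r ≤ s → (∀ y ∈ Icc l r, K m b M1 M2 s y ≤ c) →
      U m b M1 M2 s r - U m b M1 M2 s l ≤ c * (r - l) := by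
    intro l r c hl0 hlr hrs hK
    refine (convex_Icc l r).image_sub_le_mul_sub_of_deriv_le
      (fun y hy => (hdU y (hl0.trans hy.1) (hy.2.trans hrs)).continuousAt.continuousWithinAt)
      (fun y hy => (hdU y (hl0.trans (interior_subset hy).1)
        ((interior_subset hy).2.trans hrs)).differentiableAt.differentiableWithinAt)
      (fun y hy => ?_) l (left_mem_Icc.2 hlr) r (right_mem_Icc.2 hlr) hlr
    rw [(hdU y (hl0.trans (interior_subset hy).1) ((interior_subset hy).2.trans hrs)).deriv]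
    exact hK y (interior_subset hy)
  have h1 := hc.U_ge_right (M2 := M2) (s := s) (S := x1) hx00 hx08.ge (hx01.trans hx1s)
    (by linarith) ⟨hx01, by linarith⟩
  have hU1 : 0 ≤ U m b M1 M2 s x1 := le_trans (by
    have := hc.M1_lo; have := cs_pos hsq; positivity) h1
  have h2 := hstep x0 x1 (V - 1 / 1000000 * (s / (m : ℝ))) hx00 hx01 hx1s fun y hy =>
    hc.K_window hs0.le hsq
      (hx08.ge.trans (mul_le_mul_of_nonneg_left (pow_le_pow_left₀ hx00 hy.1 2) (by linarith)))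
      ((mul_le_mul_of_nonneg_left (pow_le_pow_left₀ (hx00.trans hy.1) hy.2 2)
        (by linarith)).trans hx19.le)
      (hx00.trans hy.1) (hy.2.trans hx14) (hV y (hx00.trans hy.1) (hy.2.trans hx1s))
  have h3 := hstep S x0 (9 / ((m : ℝ) * ρ) + V) hS0 hSx (hx01.trans hx1s) fun y hy =>
    hc.K_near hs0.le hsq (hS0.trans hy.1) (hy.2.trans (hx01.trans hx1s)) (hy.2.trans hx01)
      (hV y (hS0.trans hy.1) (hy.2.trans (hx01.trans hx1s)))
  have hV0 : 0 ≤ V := by positivity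
  have hVN : V ≤ 1 / 1000000 * (s / (m : ℝ)) / 1000 := by
    have hY14 : (100000000000000 : ℝ) ≤ Y ^ 2 :=
      le_trans (by norm_num) (pow_le_pow_left₀ (by norm_num) hY 2)
    rw [hVdef, div_le_iff₀ (by positivity)]
    calc 100000 * s = 1 / 1000000000 * s * 100000000000000 := by ring
      _ ≤ 1 / 1000000000 * s * Y ^ 2 := mul_le_mul_of_nonneg_left hY14 (by positivity)
      _ = _ := by field_simp; ring
  have hw : 17 / 100 / ρ ≤ x1 - x0 := by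
    rw [hx0, hx1, ← sub_div]; exact div_le_div_of_nonneg_right (by linarith) hρ0.le
  have hw0 : x0 - S ≤ 283 / 100 / ρ := by
    have := div_le_div_of_nonneg_right h8 hρ0.le
    linarith
  have h4 := mul_le_mul_of_nonpos_left hw
    (show V - 1 / 1000000 * (s / (m : ℝ)) ≤ 0 by linarith [show (0 : ℝ) ≤ s / (m : ℝ) by positivity])
  have h5 := mul_le_mul_of_nonneg_left hw0 (show 0 ≤ 9 / ((m : ℝ) * ρ) + V by positivity)
  have h6 := left_margin hρ0 hρ2 hy rfl hVN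
  exact ⟨by linarith, by linarith⟩

theorem U_ge_left {Y : ℝ} (hY : 1000000000 ≤ Y) (hY2 : Y ^ 2 ≤ (m : ℝ) * s ^ 2) (hs0 : 0 ≤ s)
    (hs : s ≤ 1 / 10) (hS0 : 0 ≤ S) (hS : (m : ℝ) * S ^ 2 ≤ 8) :
    M1 / 4 * s ^ 2 * cs s ^ (m - 2) * (S - s) ^ 2 ≤ U m b M1 M2 s S := by
  have hm := hc.m_ge
  have hsp : 0 < s := by
    rcases hs0.eq_or_lt with rfl | h
    · have := pow_le_pow_left₀ (by norm_num) hY 2
      linarith
    · exact h
  obtain ⟨h1, hSs⟩ := hc.U_window (M2 := M2) hY hY2 hsp hs hS0 hS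
  refine le_trans ?_ h1
  have h5 := (hc.weights_le (Y := Y) hY2 hs0 hs).2
  have hc0 := cs_pos (show s ^ 2 < 1 by linarith [sq_le_of_le hs0 (by linarith)])
  have hd : (S - s) ^ 2 ≤ s ^ 2 := sq_le_sq' (by linarith) (by linarith)
  have hw : cs s ^ (m - 2) ≤ cs s ^ (m - 4) :=
    pow_le_pow_of_le_one hc0.le (cs_le_one s) (by omega)
  have hM : M1 / 4 ≤ 1 / 10 := by linarith [hc.M1_hi]
  have hM0 : 0 ≤ M1 := by linarith [hc.M1_lo]
  rw [le_div_iff₀ (by positivity)]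
  calc M1 / 4 * s ^ 2 * cs s ^ (m - 2) * (S - s) ^ 2 * (m : ℝ) ^ 2 ≤
        1 / 10 * s ^ 2 * cs s ^ (m - 4) * s ^ 2 * (m : ℝ) ^ 2 := by gcongr
    _ = 1 / 10 * ((m : ℝ) ^ 2 * s ^ 4 * cs s ^ (m - 4)) := by ring
    _ ≤ _ := by linarith

end Cnst

/-- For `s √m` large, `U` is positive definite in `S - s`. -/
theorem U_ge_of_large : ∃ Y1 : ℝ, 1 ≤ Y1 ∧ ∀ {m : ℕ} {b M1 M2 s S : ℝ}, Cnst m b M1 M2 → 0 ≤ s →
    s ≤ 1 / 10 → 0 ≤ S → S ≤ 9 / 20 → Y1 ^ 2 ≤ (m : ℝ) * s ^ 2 →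
    M1 / 4 * s ^ 2 * cs s ^ (m - 2) * (S - s) ^ 2 ≤ U m b M1 M2 s S := by
  refine ⟨1000000000, by norm_num, fun {m b M1 M2 s S} hc hs0 hs hS0 hS hY => ?_⟩
  rcases le_total ((m : ℝ) * S ^ 2) 8 with h | h
  · exact hc.U_ge_left le_rfl hY hs0 hs hS0 h
  · have hm := hc.m_ge
    set l := min s S with hl
    have hl0 : 0 ≤ l := le_min hs0 hS0
    have hl8 : 8 ≤ (m : ℝ) * l ^ 2 := by
      rcases min_choice s S with e | e
      · rw [hl, e]; linarith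
      · rw [hl, e]; exact h
    have h1 := hc.U_ge_right (M2 := M2) hl0 hl8 (min_le_left s S) (by linarith)
      ⟨min_le_right s S, hS⟩
    have h2 : 0 ≤ M1 * s ^ 2 * cs s ^ (m - 2) * (S - s) ^ 2 := by
      have : (0 : ℝ) ≤ cs s := Real.sqrt_nonneg _
      have := hc.M1_lo
      positivity
    linarith

end Vale.Agent.P237.Petty.Centre
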