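import Vale.Agent.P237.Petty.Centre.Pointwise
import Vale.Agent.P237.Petty.Centre.Sign

/-!
# P237: the centre estimate

The pointwise estimate without hypotheses on `U`, and a lower bound for `Gd`.
-/

namespace Vale.Agent.P237.Petty.Centre

open Real

/-- The pointwise centre estimate. -/
theorem centre_pointwise (Cq : ℝ) : ∃ C : ℝ, 0 ≤ C ∧ ∃ N : ℕ, 1000 ≤ N ∧
    ∀ {m : ℕ} {b M1 M2 s S z : ℝ}, N ≤ m → Cnst m b M1 M2 → 0 ≤ s → s ≤ 1 / 10 → 0 ≤ S →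
      S ≤ 9 / 20 → 0 < z → z ^ m ≤ Cq * √(m : ℝ) → cs s ^ m * S ≤ z ^ m * s →
      -Gd m M1 M2 s * (2 + z ^ m) ≤ 3 / 100 →
      (m : ℝ)⁻¹ * cs s ^ (m - 2) * gap m z / 100 ≤ P m b M1 M2 C s S z := by
  obtain ⟨Y1, -, hU⟩ := U_ge_of_large
  exact P_ge_gap (Y1 := Y1) hU Cq

variable {m : ℕ} {b M1 M2 s : ℝ}

/-- The coefficient `Gd` is almost nonnegative. -/
theorem neg_Gd_le (hc : Cnst m b M1 M2) (hs : s ^ 2 ≤ 1 / 4) :
    -Gd m M1 M2 s ≤ 6 * (m : ℝ)⁻¹ + 2 * s ^ 2 := by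
  have hm := hc.m_ge
  set e := (m : ℝ)⁻¹ with he
  have he0 : 0 < e := inv_pos.2 (by linarith)
  have hem : e * (m : ℝ) = 1 := inv_mul_cancel₀ (by linarith)
  have hu : ((m : ℝ) - 2)⁻¹ ≤ 2 * e := by
    rw [he, ← div_eq_mul_inv, le_div_iff₀ (by linarith), ← div_eq_inv_mul, div_le_iff₀ (by linarith)]
    linarith
  have hu0 : 0 ≤ ((m : ℝ) - 2)⁻¹ := inv_nonneg.2 (by linarith)
  have hsum : 1 - 4 * e ≤ 2 * (M1 + M2) := by
    rw [hc.sum_eq]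
    have hb : b ^ 3 ≤ 1 := pow_le_one₀ hc.b_pos.le hc.b_le_one
    have hb0 := pow_pos hc.b_pos 3
    rw [← mul_div_assoc, le_div_iff₀ (by positivity)]
    rcases le_total 0 (1 - 4 * e) with h | h
    · have := mul_le_mul_of_nonneg_left
        (mul_le_mul_of_nonneg_left hb (show (0 : ℝ) ≤ 2 * ((m : ℝ) + 3) by positivity)) h
      nlinarith
    · have : (1 - 4 * e) * (2 * ((m : ℝ) + 3) * b ^ 3) ≤ 0 :=
        mul_nonpos_of_nonpos_of_nonneg h (by positivity)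
      linarith
  have hc1 : cs s ≤ 1 := sqrt_le_one.2 (by nlinarith)
  have hM1 : 0 ≤ M1 := by linarith [hc.M1_lo]
  have hM1' := hc.M1_hi
  have hu' : 2 * M1 * ((1 - s ^ 2) * (((m : ℝ) - 2)⁻¹ * (1 - 3 * s ^ 2))) ≤ 1 * (1 * (2 * e * 1)) :=
    mul_le_mul (by linarith) (mul_le_mul (by nlinarith)
      (mul_le_mul hu (by nlinarith) (by linarith) (by positivity))
      (mul_nonneg hu0 (by linarith)) (by norm_num))
      (mul_nonneg (by linarith) (mul_nonneg hu0 (by linarith))) (by norm_num)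
  have h1 : 0 ≤ 2 * M1 * ((1 - s ^ 2) * s ^ 2) :=
    mul_nonneg (by linarith) (mul_nonneg (by linarith) (sq_nonneg s))
  have h2 := mul_le_mul_of_nonneg_right hsum (sq_nonneg (1 - s ^ 2))
  have h3 : 1 - 2 * s ^ 2 ≤ (1 - s ^ 2) ^ 2 := by nlinarith [sq_nonneg (s ^ 2)]
  have h4 : (1 - s ^ 2) ^ 2 ≤ 1 := pow_le_one₀ (by linarith) (by nlinarith)
  have h5 := mul_le_mul_of_nonneg_left h4 (show 0 ≤ 4 * e by positivity)
  rw [Gd]
  linarith

end Vale.Agent.P237.Petty.Centre
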