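import Vale.Agent.P237.Petty.Centre.Remainder

/-!
# P237: the pointwise centre estimate

For large `m` the calibrated integrand is at least a multiple of the gap of `log` on the centre,
given an upper and a lower bound for `q = z ^ m`.
-/

namespace Vale.Agent.P237.Petty.Centre

open Real

variable {m : ℕ} {b M1 M2 C s S z : ℝ}

theorem cs_pow_lower (hs0 : 0 ≤ s) (hs : s ≤ 1 / 10) {Y : ℝ} (hsY : √(m : ℝ) * s ≤ Y) :
    exp (-Y ^ 2) ≤ cs s ^ m := by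
  have hc := one_le_cs hs0 hs
  have hx : s ^ 2 ≤ 1 / 2 := by nlinarith
  have h1 : exp (-(2 * s ^ 2)) ≤ cs s ^ 2 := by
    rw [cs_sq (by linarith), exp_neg]
    refine inv_le_of_inv_le₀ (by linarith) ?_
    refine le_trans ?_ (add_one_le_exp _)
    rw [inv_le_iff_one_le_mul₀ (by linarith)]
    nlinarith [sq_nonneg s]
  have h2 : exp (-(s ^ 2)) ≤ cs s := by
    have : exp (-(s ^ 2)) ^ 2 ≤ cs s ^ 2 := by
      rw [← exp_nat_mul]
      push_cast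
      rwa [show (2 : ℝ) * -s ^ 2 = -(2 * s ^ 2) by ring]
    nlinarith [exp_pos (-(s ^ 2))]
  refine le_trans ?_ (pow_le_pow_left₀ (exp_pos _).le h2 m)
  rw [← exp_nat_mul, exp_le_exp]
  have : (√(m : ℝ) * s) ^ 2 ≤ Y ^ 2 := pow_le_pow_left₀ (by positivity) hsY 2
  rw [mul_pow, sq_sqrt (Nat.cast_nonneg m)] at this
  linarith

/-- Near the diagonal the second null function pays for a quadratic loss. -/
theorem null_pays {D Y K : ℝ} (hm : 1000 ≤ m) (hs0 : 0 ≤ s) (hs : s ≤ 1 / 10) (hD : 0 ≤ D)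
    (hd : (m : ℝ) * (S - s) ^ 2 ≤ (K + Y) ^ 2) (hsY : √(m : ℝ) * s ≤ Y)
    (hC : C = D * (1 + (K + Y) ^ 2) * (exp (Y ^ 2) * exp Y)) :
    (m : ℝ)⁻¹ * D * (S - s) ^ 2 ≤ kap' m C s * sat m (S - s) := by
  have hm' : (1000 : ℝ) ≤ m := by exact_mod_cast hm
  have hC0 : 0 ≤ C := by rw [hC]; positivity
  have hcm := cs_pow_lower hs0 hs hsY
  set e := (m : ℝ)⁻¹ with he
  have hc0 : 0 ≤ cs s := sqrt_nonneg _
  have hsat : (S - s) ^ 2 / (1 + (K + Y) ^ 2) ≤ sat m (S - s) :=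
    div_le_div_of_nonneg_left (sq_nonneg _) (by positivity) (by linarith)
  have hkap : e * (D * (1 + (K + Y) ^ 2)) ≤ kap' m C s := by
    have hY : exp (-Y) ≤ exp (-(√(m : ℝ) * s)) := exp_le_exp.2 (by linarith)
    have h0 : 0 ≤ (m : ℝ) * s / (1 - s ^ 2) := by
      have : 0 < 1 - s ^ 2 := by nlinarith
      positivity
    have e1 : √e * √(m : ℝ) = 1 := by
      rw [he, ← sqrt_mul (by positivity), inv_mul_cancel₀ (by linarith), sqrt_one]
    rw [kap', ← he]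
    calc e * (D * (1 + (K + Y) ^ 2))
        = e * (D * (1 + (K + Y) ^ 2)) * (√e * √(m : ℝ)) *
            ((exp (Y ^ 2) * exp (-Y ^ 2)) * (exp Y * exp (-Y))) := by
          rw [e1, ← exp_add, ← exp_add]; simp
      _ = C * (e * √e) * (exp (-Y ^ 2) * exp (-Y)) * √(m : ℝ) := by rw [hC]; ring
      _ ≤ _ := mul_le_mul (mul_le_mul_of_nonneg_left (mul_le_mul hcm hY (exp_pos _).le
          (pow_nonneg hc0 _)) (by positivity)) (le_add_of_nonneg_left h0) (sqrt_nonneg _)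
          (mul_nonneg (by positivity) (mul_nonneg (pow_nonneg hc0 _) (exp_pos _).le))
  refine le_trans (le_of_eq ?_) (mul_le_mul hkap hsat (by positivity)
    (le_trans (by positivity) hkap))
  field_simp

/-- Far from the diagonal `q` is large and the gap pays. -/
theorem gap_pays {D Y K e : ℝ} (hz : 0 < z) (hD : 0 ≤ D) (hY : 0 < Y)
    (hK : K = Y * exp (Y ^ 2) * exp (1 + 25 * D * exp (Y ^ 2))) (hfar : K ≤ √(m : ℝ) * S)
    (hsY : √(m : ℝ) * s ≤ Y) (hq : cs s ^ m * S ≤ z ^ m * s) (hs0 : 0 ≤ s) (hs : s ≤ 1 / 10)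
    (hS0 : 0 ≤ S) (hS : S ≤ 9 / 20) (he : 0 ≤ e) :
    e * D * (S - s) ^ 2 ≤ e * cs s ^ (m - 2) * gap m z / 100 := by
  have hc0 : 0 ≤ cs s := sqrt_nonneg _
  have hc2 : cs s ≤ 1 := sqrt_le_one.2 (by nlinarith)
  have hq0 := pow_pos hz m
  have hcm := cs_pow_lower (m := m) hs0 hs hsY
  have hK0 : 0 ≤ K := by rw [hK]; positivity
  have hK' : exp (-Y ^ 2) * K ≤ z ^ m * Y := by
    calc exp (-Y ^ 2) * K ≤ cs s ^ m * (√(m : ℝ) * S) :=
          mul_le_mul hcm hfar hK0 (pow_nonneg hc0 _)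
      _ = √(m : ℝ) * (cs s ^ m * S) := by ring
      _ ≤ √(m : ℝ) * (z ^ m * s) := mul_le_mul_of_nonneg_left hq (sqrt_nonneg _)
      _ = z ^ m * (√(m : ℝ) * s) := by ring
      _ ≤ z ^ m * Y := mul_le_mul_of_nonneg_left hsY hq0.le
  have hlog : 25 * D * exp (Y ^ 2) ≤ gap m z := by
    have h1 : exp (1 + 25 * D * exp (Y ^ 2)) ≤ z ^ m := by
      refine le_of_mul_le_mul_right ?_ hY
      refine le_trans (le_of_eq ?_) hK'
      rw [hK, exp_neg]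
      field_simp
    have h2 := log_le_log (exp_pos _) h1
    rw [log_exp, log_pow] at h2
    rw [gap]
    linarith [inv_nonneg.2 hq0.le]
  have hd2 : (S - s) ^ 2 ≤ 1 / 4 := by nlinarith
  have hg := gap_nonneg (m := m) hz
  calc e * D * (S - s) ^ 2 ≤ e * D * (1 / 4) := mul_le_mul_of_nonneg_left hd2 (by positivity)
    _ = e * exp (-Y ^ 2) * (25 * D * exp (Y ^ 2)) / 100 := by
        rw [exp_neg]; field_simp; ring
    _ ≤ _ := by
        gcongr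
        exact hcm.trans (pow_le_pow_of_le_one hc0 hc2 (Nat.sub_le m 2))

/-- The three smallness conditions for large `m`. -/
theorem large_conditions {A : ℝ} (hm : 1000 ≤ m) (hC : 0 ≤ C)
    (hq : z ^ m ≤ A * √(m : ℝ)) (hA : 0 ≤ A) (hR : 2 * C + 1000 * (2 + A) * (C + 1) ≤ √(m : ℝ)) :
    2 * C * √((m : ℝ)⁻¹) ≤ 1 ∧ C * ((m : ℝ)⁻¹ * (2 + z ^ m)) ≤ 1 / 1000 ∧
      (m : ℝ)⁻¹ * z ^ m ≤ 1 / 1000 := by
  have hm' : (1000 : ℝ) ≤ m := by exact_mod_cast hm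
  set e := (m : ℝ)⁻¹ with he
  have he0 : 0 < e := inv_pos.2 (by linarith)
  have hsm : 0 < √(m : ℝ) := sqrt_pos.2 (by linarith)
  have hes : e * √(m : ℝ) = 1 / √(m : ℝ) := by
    rw [he, ← div_eq_inv_mul, sqrt_div_self]; ring
  have hq1 : e * z ^ m ≤ A / √(m : ℝ) := by
    refine (mul_le_mul_of_nonneg_left hq he0.le).trans (le_of_eq ?_)
    linear_combination A * hes
  have hCA := mul_nonneg hC hA
  refine ⟨?_, ?_, ?_⟩
  · rw [he, sqrt_inv, ← div_eq_mul_inv, div_le_one hsm]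
    linarith
  · have : e ≤ 1 / √(m : ℝ) :=
      hes ▸ le_mul_of_one_le_right he0.le (one_le_sqrt.2 (by linarith))
    calc C * (e * (2 + z ^ m)) ≤ C * (2 * (1 / √(m : ℝ)) + A / √(m : ℝ)) :=
          mul_le_mul_of_nonneg_left (by linarith) hC
      _ = C * (2 + A) / √(m : ℝ) := by ring
      _ ≤ _ := by
          rw [div_le_iff₀ hsm]
          linarith
  · refine hq1.trans ?_
    rw [div_le_iff₀ hsm]
    linarith

/-- The estimate for given constants. -/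
theorem P_ge_gap_at {Y D K A : ℝ} (hc : Cnst m b M1 M2) (hm : 1000 ≤ m) (hs0 : 0 ≤ s)
    (hs : s ≤ 1 / 10) (hS0 : 0 ≤ S) (hS : S ≤ 9 / 20) (hz : 0 < z) (hY : 170 ≤ Y)
    (hD : D = 50000 + 5000 * Y + Y ^ 2 + 2500)
    (hK : K = Y * exp (Y ^ 2) * exp (1 + 25 * D * exp (Y ^ 2)))
    (hC : C = D * (1 + (K + Y) ^ 2) * (exp (Y ^ 2) * exp Y))
    (hA : 0 ≤ A) (hR : 2 * C + 1000 * (2 + A) * (C + 1) ≤ √(m : ℝ))
    (hqhi : z ^ m ≤ A * √(m : ℝ)) (hqlo : cs s ^ m * S ≤ z ^ m * s)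
    (hG : -Gd m M1 M2 s * (2 + z ^ m) ≤ 3 / 100)
    (hU : Y ^ 2 ≤ (m : ℝ) * s ^ 2 →
      M1 / 4 * s ^ 2 * cs s ^ (m - 2) * (S - s) ^ 2 ≤ U m b M1 M2 s S) :
    (m : ℝ)⁻¹ * cs s ^ (m - 2) * gap m z / 100 ≤ P m b M1 M2 C s S z := by
  have hD0 : 0 ≤ D := by rw [hD]; positivity
  have hC0 : 0 ≤ C := by rw [hC]; positivity
  obtain ⟨c1, c2, c3⟩ := large_conditions hm hC0 hqhi hA hR
  have hP := P_ge_U hc hm hs0 hs hS0 hS hz hC0 c1 c2 c3 hG
  have hm' : (1000 : ℝ) ≤ m := by exact_mod_cast hm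
  have hcs := one_le_cs hs0 hs
  have hc2 : cs s ≤ 1 := sqrt_le_one.2 (by nlinarith)
  set e := (m : ℝ)⁻¹ with he
  have he0 : 0 < e := inv_pos.2 (by linarith)
  have hwg : 0 ≤ e * cs s ^ (m - 2) * gap m z :=
    mul_nonneg (mul_nonneg he0.le (pow_nonneg (by linarith) _)) (gap_nonneg hz)
  rcases le_total Y (√(m : ℝ) * s) with hbig | hsmall
  · have hY2 : Y ^ 2 ≤ (m : ℝ) * s ^ 2 := by
      have := pow_le_pow_left₀ (by linarith) hbig 2
      rwa [mul_pow, sq_sqrt (by linarith)] at this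
    have h1 : e * 28900 ≤ s ^ 2 := by
      rw [he, ← div_eq_inv_mul, div_le_iff₀ (by linarith)]
      nlinarith only [hY2, hY]
    have h2 : 2500 * e ≤ M1 / 4 * s ^ 2 := by
      have := mul_le_mul (show (9 : ℝ) / 100 ≤ M1 / 4 by linarith [hc.M1_lo]) h1 (by positivity)
        (by linarith [hc.M1_lo])
      linarith
    have h3 := mul_le_mul_of_nonneg_right h2
      (show 0 ≤ cs s ^ (m - 2) * (S - s) ^ 2 by
        have : 0 ≤ cs s := by linarith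
        positivity)
    have hk' := mul_nonneg (kap'_nonneg (m := m) hC0 hs0 hs) (sat_nonneg (m := m) (S - s))
    linarith [hU hY2]
  · have hb := neg_le_of_abs_le (abs_U_le hc (by linarith : (0 : ℝ) ≤ Y) hs0 hs hS0 hS hsmall)
    rw [← he] at hb
    have hw1 : e * cs s ^ (m - 2) ≤ e :=
      mul_le_of_le_one_right he0.le (pow_le_one₀ (by linarith) hc2)
    have hloss : -(e * D * (S - s) ^ 2) ≤
        U m b M1 M2 s S - e * cs s ^ (m - 2) * (2500 * (S - s) ^ 2) := by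
      have := mul_le_mul_of_nonneg_right hw1 (show (0 : ℝ) ≤ 2500 * (S - s) ^ 2 by positivity)
      rw [hD]
      linarith
    rcases le_total (√(m : ℝ) * S) K with hnear | hfar
    · have hd : (m : ℝ) * (S - s) ^ 2 ≤ (K + Y) ^ 2 := by
        have : |√(m : ℝ) * S - √(m : ℝ) * s| ≤ K + Y := by
          rw [abs_le]
          have h1 : 0 ≤ √(m : ℝ) * S := by positivity
          have h2 : 0 ≤ √(m : ℝ) * s := by positivity
          constructor <;> linarith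
        have := pow_le_pow_left₀ (abs_nonneg _) this 2
        rwa [sq_abs, ← mul_sub, mul_pow, sq_sqrt (by linarith)] at this
      have := null_pays hm hs0 hs hD0 hd hsmall hC
      rw [← he] at this
      linarith
    · have := gap_pays (e := e) hz hD0 (by linarith) hK hfar hsmall hqlo hs0 hs hS0 hS he0.le
      have hk' := mul_nonneg (kap'_nonneg (m := m) hC0 hs0 hs) (sat_nonneg (m := m) (S - s))
      linarith

/-- The pointwise centre estimate, given the sign of `U` away from the centre. -/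
theorem P_ge_gap {Y1 : ℝ}
    (hUge : ∀ {m : ℕ} {b M1 M2 s S : ℝ}, Cnst m b M1 M2 → 0 ≤ s → s ≤ 1 / 10 → 0 ≤ S →
      S ≤ 9 / 20 → Y1 ^ 2 ≤ (m : ℝ) * s ^ 2 →
      M1 / 4 * s ^ 2 * cs s ^ (m - 2) * (S - s) ^ 2 ≤ U m b M1 M2 s S)
    (Cq : ℝ) : ∃ C : ℝ, 0 ≤ C ∧ ∃ N : ℕ, 1000 ≤ N ∧ ∀ {m : ℕ} {b M1 M2 s S z : ℝ}, N ≤ m →
      Cnst m b M1 M2 → 0 ≤ s → s ≤ 1 / 10 → 0 ≤ S → S ≤ 9 / 20 → 0 < z →
      z ^ m ≤ Cq * √(m : ℝ) → cs s ^ m * S ≤ z ^ m * s →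
      -Gd m M1 M2 s * (2 + z ^ m) ≤ 3 / 100 →
      (m : ℝ)⁻¹ * cs s ^ (m - 2) * gap m z / 100 ≤ P m b M1 M2 C s S z := by
  obtain ⟨Y, hY, hY1⟩ : ∃ Y : ℝ, 170 ≤ Y ∧ Y1 ^ 2 ≤ Y ^ 2 :=
    ⟨max |Y1| 170, le_max_right _ _, by
      rw [← sq_abs Y1]; exact pow_le_pow_left₀ (abs_nonneg _) (le_max_left _ _) 2⟩
  obtain ⟨D, hD⟩ : ∃ D : ℝ, D = 50000 + 5000 * Y + Y ^ 2 + 2500 := ⟨_, rfl⟩
  obtain ⟨K, hK⟩ : ∃ K : ℝ, K = Y * exp (Y ^ 2) * exp (1 + 25 * D * exp (Y ^ 2)) := ⟨_, rfl⟩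
  obtain ⟨C, hC⟩ : ∃ C : ℝ, C = D * (1 + (K + Y) ^ 2) * (exp (Y ^ 2) * exp Y) := ⟨_, rfl⟩
  have hD0 : 0 ≤ D := by rw [hD]; positivity
  have hC0 : 0 ≤ C := by rw [hC]; positivity
  refine ⟨C, hC0, 1000 + ⌈(2 * C + 1000 * (2 + |Cq|) * (C + 1)) ^ 2⌉₊, Nat.le_add_right _ _, ?_⟩
  intro m b M1 M2 s S z hm hc hs0 hs hS0 hS hz hqhi hqlo hG
  have hR : 2 * C + 1000 * (2 + |Cq|) * (C + 1) ≤ √(m : ℝ) := by
    rw [le_sqrt (by positivity) (Nat.cast_nonneg m)]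
    refine (Nat.le_ceil _).trans ?_
    exact_mod_cast le_trans (Nat.le_add_left _ _) hm
  exact P_ge_gap_at hc (le_trans (Nat.le_add_right _ _) hm) hs0 hs hS0 hS hz hY hD hK hC
    (abs_nonneg Cq) hR (hqhi.trans (mul_le_mul_of_nonneg_right (le_abs_self Cq) (sqrt_nonneg _)))
    hqlo hG fun h => hUge hc hs0 hs hS0 hS (hY1.trans h)

end Vale.Agent.P237.Petty.Centre
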