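import Vale.Agent.P237.Petty.Centre.Main
import Vale.Agent.P237.Petty.Ident
import Vale.Agent.P237.Petty.LargeN.Tools

/-!
# P237: the centre estimate along a profile

The two bounds of the Jacobian needed by the pointwise estimate follow from concavity, the mass
and the lower bound of the value at the origin.
-/

namespace Vale.Agent.P237.Petty.Centre

open Real Set MeasureTheory

/-- The two ways in which the Jacobian is small. -/
theorem jacobian_cases {g : ℝ → ℝ} (hc : ConcaveOn ℝ (Icc 0 1) g)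
    (hg : ∀ t ∈ Icc (0 : ℝ) 1, 0 ≤ g t) (hcont : ContinuousOn g (Icc 0 1)) {m : ℕ} (hm : 1 ≤ m)
    {s t κ : ℝ} (hκ : 0 < κ) (hs0 : 0 ≤ s) (hs : s ≤ 1 / 10) (ht0 : 0 < t) (ht : t ≤ 1)
    (hgt : 0 < g t) (hg0 : 0 < g 0) (hlow : κ / √(m : ℝ) ≤ g 0 ^ m)
    (htr : ∫ y in t..1, g y ^ m = ∫ u in s..1, √(1 - u ^ 2) ^ m) :
    (cs s ^ m / g t ^ m) * max 1 ((m : ℝ) * s ^ 2 / 4) ≤ 7 * t * ((m : ℝ) * s + √(m : ℝ)) ∨
      cs s ^ m / g t ^ m ≤ 3 / κ * √(m : ℝ) * exp (-((m : ℝ) * s ^ 2 / 4)) := by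
  have hm' : (1 : ℝ) ≤ m := by exact_mod_cast hm
  have hsm : 0 < √(m : ℝ) := sqrt_pos.2 (by linarith)
  set W := max 1 ((m : ℝ) * s ^ 2 / 4) with hW
  have hW1 : 1 ≤ W := le_max_left _ _
  have hG := pow_pos hgt m
  have hcs : cs s = √(1 - s ^ 2) := rfl
  rcases le_total W (log (g 0 ^ m / g t ^ m)) with hV | hV
  · left
    have h := LargeN.jacobian_le_log hc hg hcont m hm hs0 (by linarith) ht0 ht hgt
      (by linarith) htr
    rw [← hcs] at h
    set V := log (g 0 ^ m / g t ^ m) with hVdef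
    have hV0 : 0 < V := by linarith
    have hc2 : (6 : ℝ) / 7 ≤ 1 - s ^ 2 := by nlinarith
    calc cs s ^ m / g t ^ m * W
        ≤ t / V * (6 * ((m : ℝ) * s + √(m : ℝ))) / (1 - s ^ 2) * V :=
          mul_le_mul h hV (by linarith)
            (div_nonneg (mul_nonneg (by positivity) (by positivity)) (by linarith))
      _ = t * (6 * ((m : ℝ) * s + √(m : ℝ))) / (1 - s ^ 2) := by field_simp
      _ ≤ t * (6 * ((m : ℝ) * s + √(m : ℝ))) / (6 / 7) :=
          div_le_div_of_nonneg_left (by positivity) (by norm_num) hc2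
      _ = _ := by ring
  · right
    have h0 : g 0 ^ m / g t ^ m ≤ exp W := by
      rw [← exp_log (div_pos (pow_pos hg0 m) hG)]
      exact exp_le_exp.2 hV
    rw [div_le_iff₀ hG] at h0
    have hκ' : κ / √(m : ℝ) ≤ exp W * g t ^ m := hlow.trans h0
    have hcm : cs s ^ m ≤ exp (-((m : ℝ) * s ^ 2 / 2)) := by
      refine (pow_le_pow_left₀ (sqrt_nonneg _) (cs_le_exp (by nlinarith)) m).trans (le_of_eq ?_)
      rw [← exp_nat_mul]
      ring_nf
    have hWle : exp W * exp (-((m : ℝ) * s ^ 2 / 2)) ≤ 3 * exp (-((m : ℝ) * s ^ 2 / 4)) := by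
      have h3 : exp W ≤ 3 * exp ((m : ℝ) * s ^ 2 / 4) := by
        rcases max_cases 1 ((m : ℝ) * s ^ 2 / 4) with h | h
        · rw [hW, h.1]
          exact exp_one_lt_three.le.trans (le_mul_of_one_le_right (by norm_num)
            (one_le_exp (by positivity)))
        · rw [hW, h.1]
          exact le_mul_of_one_le_left (exp_pos _).le (by norm_num)
      refine (mul_le_mul_of_nonneg_right h3 (exp_pos _).le).trans (le_of_eq ?_)
      rw [mul_assoc, ← exp_add]
      ring_nf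
    rw [div_le_iff₀ hG]
    rw [div_le_iff₀ hsm] at hκ'
    refine le_of_mul_le_mul_left ?_ hκ
    calc κ * cs s ^ m ≤ exp W * g t ^ m * √(m : ℝ) * exp (-((m : ℝ) * s ^ 2 / 2)) :=
          mul_le_mul hκ' hcm (pow_nonneg (sqrt_nonneg _) m) (by positivity)
      _ = exp W * exp (-((m : ℝ) * s ^ 2 / 2)) * (g t ^ m * √(m : ℝ)) := by ring
      _ ≤ 3 * exp (-((m : ℝ) * s ^ 2 / 4)) * (g t ^ m * √(m : ℝ)) :=
          mul_le_mul_of_nonneg_right hWle (by positivity)
      _ = _ := by field_simp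

/-- The two bounds of the Jacobian on the centre. -/
theorem jacobian_bounds {m : ℕ} {q s t κ : ℝ} (hm : 1 ≤ m) (hκ : 0 < κ) (hq : 0 ≤ q) (hs0 : 0 ≤ s)
    (ht : t ≤ 9 / 20)
    (h : q * max 1 ((m : ℝ) * s ^ 2 / 4) ≤ 7 * t * ((m : ℝ) * s + √(m : ℝ)) ∨
      q ≤ 3 / κ * √(m : ℝ) * exp (-((m : ℝ) * s ^ 2 / 4))) :
    q ≤ (12 + 3 / κ) * √(m : ℝ) ∧ s ^ 2 * q ≤ 13 * (s + (1 + 1 / κ) / √(m : ℝ)) := by
  have hm' : (1 : ℝ) ≤ m := by exact_mod_cast hm
  set r := √(m : ℝ) with hr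
  have hr1 : 1 ≤ r := one_le_sqrt.2 hm'
  have hr2 : r ^ 2 = m := sq_sqrt (by linarith)
  set W := max 1 ((m : ℝ) * s ^ 2 / 4)
  have hW1 : 1 ≤ W := le_max_left _ _
  have hW2 : (m : ℝ) * s ^ 2 / 4 ≤ W := le_max_right _ _
  have hκ3 : 0 ≤ 3 / κ := by positivity
  have hk1 : 0 ≤ (1 + 1 / κ) / r := by positivity
  rcases h with h | h
  · have hy : (m : ℝ) * s + r ≤ 3 * r * W := by
      have hsq : r * s ≤ 2 * W := by nlinarith [sq_nonneg (r * s - 2)]
      have := mul_le_mul_of_nonneg_left hsq (show 0 ≤ r by linarith)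
      nlinarith
    have h7 : 7 * t * ((m : ℝ) * s + r) ≤ 63 / 20 * ((m : ℝ) * s + r) :=
      mul_le_mul_of_nonneg_right (by linarith) (by positivity)
    constructor
    · have : q * W ≤ 12 * r * W := by
        have hrW : 0 ≤ r * W := by positivity
        linarith
      exact (le_of_mul_le_mul_right this (by linarith)).trans
        (mul_le_mul_of_nonneg_right (by linarith) (by linarith))
    · have h1 : q * ((m : ℝ) * s ^ 2 / 4) ≤ 63 / 20 * ((m : ℝ) * s + r) :=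
        ((mul_le_mul_of_nonneg_left hW2 hq).trans h).trans h7
      have h2 : s ^ 2 * q ≤ 63 / 5 * (s + 1 / r) := by
        refine le_of_mul_le_mul_right ?_ (show (0 : ℝ) < m / 4 by linarith)
        calc s ^ 2 * q * ((m : ℝ) / 4) = q * ((m : ℝ) * s ^ 2 / 4) := by ring
          _ ≤ _ := h1.trans (le_of_eq ?_)
        rw [← hr2]
        field_simp
        ring
      have h3 : 1 / r ≤ (1 + 1 / κ) / r :=
        div_le_div_of_nonneg_right (le_add_of_nonneg_right (by positivity)) (by linarith)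
      linarith
  · have he : exp (-((m : ℝ) * s ^ 2 / 4)) ≤ 1 := exp_le_one_iff.2 (by
      have : 0 ≤ (m : ℝ) * s ^ 2 / 4 := by positivity
      linarith)
    constructor
    · exact h.trans ((mul_le_of_le_one_right (by positivity) he).trans
        (mul_le_mul_of_nonneg_right (by linarith) (by linarith)))
    · have hx : (m : ℝ) * s ^ 2 / 4 * exp (-((m : ℝ) * s ^ 2 / 4)) ≤ 1 := by
        rw [exp_neg, ← div_eq_mul_inv, div_le_one (exp_pos _)]
        linarith [add_one_le_exp ((m : ℝ) * s ^ 2 / 4)]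
      have h2 : s ^ 2 * q ≤ 12 * (1 / κ / r) := by
        refine (mul_le_mul_of_nonneg_left h (sq_nonneg s)).trans ?_
        calc s ^ 2 * (3 / κ * r * exp (-((m : ℝ) * s ^ 2 / 4)))
            = (m : ℝ) * s ^ 2 / 4 * exp (-((m : ℝ) * s ^ 2 / 4)) * (12 * (1 / κ / r)) := by
              rw [← hr2]; field_simp; ring
          _ ≤ _ := mul_le_of_le_one_left (by positivity) hx
      have h3 : 1 / κ / r ≤ (1 + 1 / κ) / r :=
        div_le_div_of_nonneg_right (le_add_of_nonneg_left zero_le_one) (by linarith)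
      linarith

/-- The centre estimate along a profile. -/
theorem centre_profile {κ : ℝ} (hκ : 0 < κ) : ∃ C : ℝ, 0 ≤ C ∧ ∃ N : ℕ, 1000 ≤ N ∧
    ∀ {p : ℕ} {b M1 M2 lam : ℝ} {g σ : ℝ → ℝ} {t : ℝ}, N ≤ p + 1 → Cnst (p + 1) b M1 M2 →
      Regular g → Transport p g σ → κ / √((p : ℝ) + 1) ≤ lam ^ (p + 1) → 0 < lam →
      lam ≤ g 0 → 0 < t → t ≤ 9 / 20 → σ t ≤ 1 / 5000 →
      ((p : ℝ) + 1)⁻¹ * cs (σ t) ^ (p + 1 - 2) * gap (p + 1) (cs (σ t) / g t) / 100 ≤
        P (p + 1) b M1 M2 C (σ t) t (cs (σ t) / g t) := by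
  obtain ⟨C, hC, N, hN, hP⟩ := centre_pointwise (12 + 3 / κ)
  refine ⟨C, hC, max N ⌈(8000 * (1 + 1 / κ)) ^ 2⌉₊, hN.trans (le_max_left _ _), ?_⟩
  intro p b M1 M2 lam g σ t hp hc hg hσ hlow hlam hlam0 ht0 ht hst
  set m := p + 1 with hm
  have hm1 : 1 ≤ m := Nat.succ_le_succ (Nat.zero_le p)
  have hmR : (m : ℝ) = (p : ℝ) + 1 := by rw [hm]; push_cast; ring
  rw [← hmR] at hlow ⊢
  have htI : t ∈ Icc (0 : ℝ) 1 := ⟨ht0.le, by linarith⟩
  have hs0 : 0 ≤ σ t := (hσ.mem t htI).1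
  have hgp : 0 < g t := hg.pos_of_lt ⟨ht0.le, by linarith⟩
  have hcs : 0 < cs (σ t) := cs_pos (by nlinarith)
  have hsub : Icc (0 : ℝ) 1 ⊆ Icc (-1) 1 := Icc_subset_Icc (by norm_num) le_rfl
  have hcc : ConcaveOn ℝ (Icc 0 1) g := hg.concave.subset hsub (convex_Icc 0 1)
  have hgn : ∀ u ∈ Icc (0 : ℝ) 1, 0 ≤ g u := fun u hu => hg.nonneg u (hsub hu)
  have hgc : ContinuousOn g (Icc 0 1) := hg.cont.mono hsub
  have hca : Continuous fun u => arc u ^ m := continuous_arc.pow _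
  have hgi : ∀ x y : ℝ, x ∈ Icc (0 : ℝ) 1 → y ∈ Icc (0 : ℝ) 1 →
      IntervalIntegrable (fun u => g u ^ m) volume x y := fun x y hx hy =>
    ((hgc.pow m).mono (uIcc_subset_Icc hx hy)).intervalIntegrable
  have h01 : (0 : ℝ) ∈ Icc (0 : ℝ) 1 := by norm_num
  have h11 : (1 : ℝ) ∈ Icc (0 : ℝ) 1 := by norm_num
  have htr : ∫ y in t..1, g y ^ m = ∫ u in σ t..1, √(1 - u ^ 2) ^ m := by
    have h1 := hσ.mass 1 h11
    have h2 := hσ.mass t htI
    rw [hσ.one] at h1
    rw [← intervalIntegral.integral_interval_sub_left (hgi 0 1 h01 h11) (hgi 0 t h01 htI), hm,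
      ← h1, ← h2]
    exact intervalIntegral.integral_interval_sub_left (hca.intervalIntegrable _ _)
      (hca.intervalIntegrable _ _)
  have hlo : t * g t ^ m ≤ σ t := by
    have hanti := antitoneOn_of_concave_even hg.concave hg.even
    calc t * g t ^ m = ∫ _ in (0 : ℝ)..t, g t ^ m := by simp
      _ ≤ ∫ u in (0 : ℝ)..t, g u ^ m := by
          refine intervalIntegral.integral_mono_on ht0.le intervalIntegrable_const
            (hgi 0 t h01 htI) fun u hu => pow_le_pow_left₀ hgp.le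
              (hanti ⟨hu.1, hu.2.trans htI.2⟩ htI hu.2) m
      _ = ∫ u in (0 : ℝ)..σ t, arc u ^ m := by rw [hm]; exact (hσ.mass t htI).symm
      _ ≤ ∫ _ in (0 : ℝ)..σ t, (1 : ℝ) := intervalIntegral.integral_mono_on hs0
          (hca.intervalIntegrable _ _) intervalIntegrable_const fun u _ =>
            pow_le_one₀ (sqrt_nonneg _) (sqrt_le_one.2 (by nlinarith [sq_nonneg u]))
      _ = σ t := by simp
  set q := cs (σ t) ^ m / g t ^ m with hqdef
  have hq0 : 0 ≤ q := by positivity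
  obtain ⟨hq1, hq2⟩ := jacobian_bounds hm1 hκ hq0 hs0 ht
    (jacobian_cases hcc hgn hgc hm1 hκ hs0 (by linarith) ht0 htI.2 hgp (hlam.trans_le hlam0)
      (hlow.trans (pow_le_pow_left₀ hlam.le hlam0 m)) htr)
  have hz : (cs (σ t) / g t) ^ m = q := div_pow _ _ _
  refine hP (le_trans (le_max_left _ _) hp) hc hs0 (by linarith) ht0.le ht (div_pos hcs hgp)
    (hz.le.trans hq1) ?_ ?_
  · rw [hz, hqdef, div_mul_eq_mul_div, le_div_iff₀ (pow_pos hgp m), mul_assoc]
    exact mul_le_mul_of_nonneg_left hlo (pow_nonneg hcs.le m)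
  · rw [hz]
    have hR : 8000 * (1 + 1 / κ) ≤ √(m : ℝ) := by
      rw [le_sqrt (by positivity) (Nat.cast_nonneg m)]
      refine (Nat.le_ceil _).trans ?_
      exact_mod_cast (le_max_right N _).trans hp
    have hsm : 0 < √(m : ℝ) := lt_of_lt_of_le (by positivity) hR
    have e1 : (m : ℝ)⁻¹ = 1 / √(m : ℝ) * (1 / √(m : ℝ)) := by
      rw [div_mul_div_comm, one_mul, mul_self_sqrt (Nat.cast_nonneg m), one_div]
    have hu : 1 / √(m : ℝ) ≤ 1 / (8000 * (1 + 1 / κ)) :=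
      one_div_le_one_div_of_le (by positivity) hR
    have hk : 0 < 1 / κ := by positivity
    have hu1 : (1 + 1 / κ) / √(m : ℝ) ≤ 1 / 8000 := by
      rw [div_le_iff₀ hsm]
      linarith
    have hu0 : 0 ≤ 1 / √(m : ℝ) := by positivity
    have hu8 : 1 / √(m : ℝ) ≤ 1 / 8000 := le_trans hu (one_div_le_one_div_of_le (by norm_num)
      (by linarith))
    have hmq : (m : ℝ)⁻¹ * q ≤ 12 / 8000 := by
      calc (m : ℝ)⁻¹ * q ≤ (m : ℝ)⁻¹ * ((12 + 3 / κ) * √(m : ℝ)) :=
            mul_le_mul_of_nonneg_left hq1 (by positivity)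
        _ = (12 + 3 / κ) / √(m : ℝ) := by rw [e1]; field_simp
        _ ≤ _ := by
            rw [div_le_iff₀ hsm]
            have : 3 / κ = 3 * (1 / κ) := by ring
            linarith
    have hmi : (m : ℝ)⁻¹ ≤ 1 / 8000 := by
      rw [e1]
      exact (mul_le_of_le_one_right hu0 (hu8.trans (by norm_num))).trans hu8
    have hs2 : σ t ^ 2 ≤ 1 / 25000000 :=
      (pow_le_pow_left₀ hs0 hst 2).trans (by norm_num)
    have := mul_le_mul_of_nonneg_right (neg_Gd_le (b := b) hc (s := σ t) (by linarith))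
      (show (0 : ℝ) ≤ 2 + q by linarith)
    linarith

end Vale.Agent.P237.Petty.Centre
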