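import Vale.Agent.P237.Petty.Centre.Lip

/-!
# P237: completing the gap in the centre

For large `m` the calibrated integrand is at least `U`, the gain of the second null function, a
multiple of the gap of `log` and a quadratic remainder.
-/

namespace Vale.Agent.P237.Petty.Centre

open Real

variable {m : ℕ} {b M1 M2 C s S z : ℝ}

theorem one_le_cs (hs0 : 0 ≤ s) (hs : s ≤ 1 / 10) : 9949 / 10000 ≤ cs s := by
  rw [show cs s = √(1 - s ^ 2) from rfl, le_sqrt (by norm_num) (by nlinarith)]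
  nlinarith

theorem sat_nonneg (d : ℝ) : 0 ≤ sat m d := by unfold sat; positivity

theorem kap'_nonneg (hC : 0 ≤ C) (hs0 : 0 ≤ s) (hs : s ≤ 1 / 10) : 0 ≤ kap' m C s := by
  have : 0 ≤ cs s := le_trans (by norm_num) (one_le_cs hs0 hs)
  have : 0 < 1 - s ^ 2 := by nlinarith
  unfold kap'
  positivity

theorem abs_sat'_le (d : ℝ) : |sat' m d| ≤ 2 * |d| ∧ √(m : ℝ) * |sat' m d| ≤ 1 := by
  have h1 : (1 : ℝ) ≤ 1 + (m : ℝ) * d ^ 2 := le_add_of_nonneg_right (by positivity)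
  have h2 : (1 : ℝ) ≤ (1 + (m : ℝ) * d ^ 2) ^ 2 := one_le_pow₀ h1
  have e : |sat' m d| = 2 * |d| / (1 + (m : ℝ) * d ^ 2) ^ 2 := by
    rw [sat', abs_div, abs_mul, abs_two, abs_of_nonneg (by positivity :
      (0 : ℝ) ≤ (1 + (m : ℝ) * d ^ 2) ^ 2)]
  refine ⟨e ▸ div_le_self (by positivity) h2, ?_⟩
  rw [e, mul_div_assoc', div_le_one (by positivity)]
  have h3 : √(m : ℝ) * (2 * |d|) ≤ 1 + (m : ℝ) * d ^ 2 := by
    nlinarith [sq_nonneg (√(m : ℝ) * |d| - 1), sq_sqrt (Nat.cast_nonneg m (α := ℝ)), sq_abs d]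
  exact h3.trans (le_self_pow₀ h1 two_ne_zero)

/-- The linear coefficient. -/
theorem Gd_sub_coG (hc : Cnst m b M1 M2) (hm : 1000 ≤ m) (hs0 : 0 ≤ s) (hs : s ≤ 1 / 10)
    (hS0 : 0 ≤ S) (hS : S ≤ 9 / 20) :
    |Gd m M1 M2 s - coG m M1 M2 s S| ≤ 83 / 500 ∧
      |Gd m M1 M2 s - coG m M1 M2 s S| ≤ 4 * |S - s| := by
  have hm' : (1000 : ℝ) ≤ m := by exact_mod_cast hm
  set u := ((m : ℝ) - 2)⁻¹ with hu
  have hu0 : 0 ≤ u := inv_nonneg.2 (by linarith)
  have hu1 : u ≤ 1 / 500 := by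
    rw [hu, inv_le_comm₀ (by linarith) (by norm_num)]
    norm_num
    linarith
  have hM1 := hc.M1_lo
  have hM1' := hc.M1_hi
  have hsum := hc.sum_le
  have hsum' : 44 / 100 ≤ M1 + M2 := by
    rw [hc.sum_eq, le_div_iff₀ (by have := hc.b_pos; positivity)]
    have : b ^ 3 ≤ 1 := pow_le_one₀ hc.b_pos.le hc.b_le_one
    nlinarith
  set k := 2 * M1 * (s ^ 2 * (s + S)) + 2 * M1 * (u * (-(4 * s) + 3 * s ^ 2 * (s + S))) +
    2 * M2 * (1 - s ^ 2) * s + 2 * M1 * (s + S) - 2 * M1 * (s * (s ^ 2 + s * S + S ^ 2)) with hk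
  have e : Gd m M1 M2 s - coG m M1 M2 s S = k * (S - s) := by
    rw [hk, Gd, coG, coA, ← hu]
    ring
  have hM0 : 0 ≤ 2 * M1 := by linarith
  have hsS : s + S ≤ 55 / 100 := by linarith
  have q1 : s ^ 2 * (s + S) ≤ 55 / 10000 :=
    (mul_le_mul (show s ^ 2 ≤ 1 / 100 by nlinarith) hsS (by linarith) (by norm_num)).trans
      (by norm_num)
  have q1' : 0 ≤ s ^ 2 * (s + S) := by positivity
  have q2 : |u * (-(4 * s) + 3 * s ^ 2 * (s + S))| ≤ 1 / 500 * 1 := by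
    rw [abs_mul, abs_of_nonneg hu0]
    exact mul_le_mul hu1 (abs_le.2 ⟨by linarith, by linarith⟩) (abs_nonneg _) (by norm_num)
  obtain ⟨q2a, q2b⟩ := abs_le.1 q2
  have q3 : s ^ 2 + s * S + S ^ 2 ≤ 3 / 10 := by nlinarith
  have q3' : s * (s ^ 2 + s * S + S ^ 2) ≤ s * (3 / 10) := mul_le_mul_of_nonneg_left q3 hs0
  have q4 : 0 ≤ 2 * M2 * (1 - s ^ 2) * s ∧ 2 * M2 * (1 - s ^ 2) * s ≤ 32 / 100 * s := by
    have : 0 ≤ 1 - s ^ 2 := by nlinarith
    have : 0 ≤ M2 := by linarith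
    refine ⟨by positivity, mul_le_mul_of_nonneg_right ?_ hs0⟩
    exact (mul_le_of_le_one_right (by linarith) (by nlinarith)).trans (by linarith)
  have h1 : 2 * M1 ≤ 754 / 1000 := by linarith
  have hk1 : k ≤ 754 / 1000 * (s + S) + 32 / 100 * s + 1 / 100 := by
    have := mul_le_mul h1 q1 q1' (by norm_num)
    have := mul_le_mul_of_nonneg_left q2b hM0
    have := mul_le_mul_of_nonneg_right h1 (show 0 ≤ s + S by linarith)
    have : 0 ≤ 2 * M1 * (s * (s ^ 2 + s * S + S ^ 2)) := by positivity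
    rw [hk]
    linarith [q4.2]
  have hk0 : -(2 / 1000) ≤ k := by
    have := mul_nonneg hM0 q1'
    have := mul_le_mul_of_nonneg_left q2a hM0
    have := mul_le_mul_of_nonneg_left q3' hM0
    have := mul_le_mul_of_nonneg_right h1 hs0
    have := mul_le_mul_of_nonneg_right (show 72 / 100 ≤ 2 * M1 by linarith)
      (show 0 ≤ s + S by linarith)
    rw [hk]
    linarith [q4.1]
  rw [e, abs_mul]
  refine ⟨?_, mul_le_mul_of_nonneg_right (abs_le.2 ⟨by linarith, by linarith⟩) (abs_nonneg _)⟩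
  rcases le_total s S with h | h
  · rw [abs_of_nonneg (show 0 ≤ S - s by linarith)]
    calc |k| * (S - s) ≤ (754 / 1000 * (s + 9 / 20) + 32 / 100 * s + 1 / 100) * (9 / 20 - s) :=
          mul_le_mul (abs_le.2 ⟨by linarith, by linarith⟩) (by linarith) (by linarith)
            (by linarith)
      _ ≤ _ := by linarith [mul_nonneg (by norm_num : (0 : ℝ) ≤ 1074 / 1000) (sq_nonneg (s - 67 / 1000))]
  · rw [abs_of_nonpos (show S - s ≤ 0 by linarith)]
    calc |k| * -(S - s) ≤ 1 * (1 / 10) :=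
          mul_le_mul (abs_le.2 ⟨by linarith, by linarith⟩) (by linarith) (by linarith)
            (by norm_num)
      _ ≤ _ := by norm_num

/-- The second null function is small. -/
theorem kap_sat'_le (hs0 : 0 ≤ s) (hs : s ≤ 1 / 10) (hC : 0 ≤ C) (hm : 1 ≤ m)
    (hCm : 2 * C * √((m : ℝ)⁻¹) ≤ 1) (d : ℝ) :
    |kap m C s * sat' m d| ≤ (m : ℝ)⁻¹ * cs s ^ (m - 2) * |d| ∧
      |kap m C s * sat' m d| ≤ (m : ℝ)⁻¹ * cs s ^ (m - 2) * (C * (m : ℝ)⁻¹) := by
  have hc1 : 0 ≤ cs s := le_trans (by norm_num) (one_le_cs hs0 hs)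
  have hc2 : cs s ≤ 1 := sqrt_le_one.2 (by nlinarith)
  set e := (m : ℝ)⁻¹ with he
  have hm' : (0 : ℝ) < m := by exact_mod_cast hm
  have he0 : 0 < e := inv_pos.2 hm'
  set w := e * cs s ^ (m - 2) with hw
  have hw0 : 0 ≤ w := by positivity
  have hk : |kap m C s * sat' m d| ≤ w * (C * √e) * |sat' m d| := by
    rw [abs_mul, kap, abs_neg, ← he, abs_of_nonneg (by positivity)]
    refine mul_le_mul_of_nonneg_right ?_ (abs_nonneg _)
    calc _ ≤ C * (e * √e) * (cs s ^ (m - 2) * 1) := by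
          refine mul_le_mul_of_nonneg_left (mul_le_mul
            (pow_le_pow_of_le_one hc1 hc2 (Nat.sub_le m 2)) ?_ (exp_pos _).le
            (pow_nonneg hc1 _)) (by positivity)
          rw [exp_le_one_iff, neg_nonpos]
          positivity
      _ = _ := by rw [hw]; ring
  obtain ⟨h1, h2⟩ := abs_sat'_le (m := m) d
  constructor
  · refine hk.trans ?_
    calc _ ≤ w * (C * √e) * (2 * |d|) := mul_le_mul_of_nonneg_left h1 (by positivity)
      _ = w * (2 * C * √e) * |d| := by ring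
      _ ≤ w * 1 * |d| := mul_le_mul_of_nonneg_right
          (mul_le_mul_of_nonneg_left hCm hw0) (abs_nonneg _)
      _ = _ := by ring
  · refine hk.trans (le_of_eq_of_le (b := w * (C * e) * (√(m : ℝ) * |sat' m d|)) ?_ ?_)
    · have : √e = e * √(m : ℝ) := by
        rw [he, sqrt_inv, ← div_eq_inv_mul]
        exact (sqrt_div_self).symm
      linear_combination (w * C * |sat' m d|) * this
    · exact mul_le_of_le_one_right (by positivity) h2

/-- The linear term against a part of the gap. -/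
theorem linear_term_ge (hz : 0 < z) {w N d : ℝ} (hw : 0 < w)
    (h1 : |N| ≤ 17 / 18 * (18 / 100 * w)) (h2 : |N| ≤ w * (5 * |d|)) :
    -(2500 * w * d ^ 2) ≤ 18 / 100 * w * gap m z - N * ((z ^ m)⁻¹ - 1) := by
  refine le_trans ?_ (gap_add_linear hz h1)
  have h := pow_le_pow_left₀ (abs_nonneg _) h2 2
  simp only [sq_abs, mul_pow] at h
  rw [neg_le_neg_iff, div_le_iff₀ (by positivity)]
  calc 18 * N ^ 2 ≤ 18 * (w ^ 2 * (5 ^ 2 * d ^ 2)) := by linarith
    _ = _ := by ring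

/-- The gap of `r⁻¹` against a part of the gap. -/
theorem inv_term_ge (hz : 0 < z) {w G a A c : ℝ} (hw : 0 ≤ w) (hA : |A| ≤ w * a)
    (hG : -G * (2 + z ^ m) ≤ 3 / 100) (ha : a * (2 + z ^ m) ≤ c) :
    -((3 / 100 + c) * w * gap m z) ≤ (w * G + A) * (z ^ m - 1 + ((z ^ m)⁻¹ - 1)) := by
  have hq0 := pow_pos hz m
  have hg1 : 0 ≤ z ^ m - 1 + ((z ^ m)⁻¹ - 1) := by
    have : z ^ m - 1 + ((z ^ m)⁻¹ - 1) = (z ^ m - 1) ^ 2 / z ^ m := by field_simp; ring
    rw [this]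
    positivity
  have hle := inv_gap_le (m := m) hz
  have hg := gap_nonneg (m := m) hz
  rcases le_total 0 (w * G + A) with h | h
  · refine le_trans ?_ (mul_nonneg h hg1)
    have : 0 ≤ w * a := (abs_nonneg A).trans hA
    have hc : 0 ≤ 3 / 100 + c ∨ w = 0 := by
      rcases eq_or_lt_of_le hw with h0 | h0
      · exact Or.inr h0.symm
      · refine Or.inl ?_
        have : 0 ≤ a := nonneg_of_mul_nonneg_right this h0
        have : 0 ≤ a * (2 + z ^ m) := by positivity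
        linarith
    rcases hc with hc | hc
    · rw [neg_nonpos]; positivity
    · simp [hc]
  · refine le_trans ?_ (mul_le_mul_of_nonpos_left hle h)
    have h1 := neg_le_of_abs_le hA
    have h2 : w * (-(3 / 100 + c)) ≤ (w * G + A) * (2 + z ^ m) := by
      have := mul_le_mul_of_nonneg_left hG hw
      have := mul_le_mul_of_nonneg_left ha hw
      have := mul_le_mul_of_nonneg_right h1 (show (0 : ℝ) ≤ 2 + z ^ m by linarith)
      linarith
    calc -((3 / 100 + c) * w * gap m z) = w * (-(3 / 100 + c)) * gap m z := by ring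
      _ ≤ (w * G + A) * (2 + z ^ m) * gap m z := mul_le_mul_of_nonneg_right h2 hg
      _ = _ := by ring

theorem coA_bounds (hc : Cnst m b M1 M2) (hs0 : 0 ≤ s) (hs : s ≤ 1 / 10) (hS0 : 0 ≤ S)
    (hS : S ≤ 9 / 20) : 0 ≤ coA m M1 s S ∧ coA m M1 s S ≤ M1 := by
  have hm := hc.m_ge
  have hM1 := hc.M1_lo
  have hp : s * S ≤ 45 / 1000 := by nlinarith
  have hp0 : 0 ≤ s * S := mul_nonneg hs0 hS0
  have hx : 0 ≤ 1 - 4 * (s * S) + 3 * (s * S) ^ 2 ∧ 1 - 4 * (s * S) + 3 * (s * S) ^ 2 ≤ 1 := by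
    constructor <;> nlinarith
  have hu0 : 0 ≤ ((m : ℝ) - 2)⁻¹ := inv_nonneg.2 (by linarith)
  have h1 : ((m : ℝ) - 2)⁻¹ * (1 - 4 * (s * S) + 3 * (s * S) ^ 2) ≤ 1 / 2 * 1 :=
    mul_le_mul (by rw [inv_le_comm₀ (by linarith) (by norm_num)]; linarith) hx.2 hx.1 (by norm_num)
  have h2 : s ^ 2 * S ^ 2 ≤ 1 / 2 := by rw [← mul_pow]; nlinarith
  have : 0 ≤ ((m : ℝ) - 2)⁻¹ * (1 - 4 * (s * S) + 3 * (s * S) ^ 2) := mul_nonneg hu0 hx.1
  have : 0 ≤ s ^ 2 * S ^ 2 := by positivity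
  exact ⟨mul_nonneg (by linarith) (by linarith), mul_le_of_le_one_right (by linarith) (by linarith)⟩

/-- The part of `P` that remains after completing the gap. -/
theorem P_ge_U (hc : Cnst m b M1 M2) (hm : 1000 ≤ m) (hs0 : 0 ≤ s) (hs : s ≤ 1 / 10) (hS0 : 0 ≤ S)
    (hS : S ≤ 9 / 20) (hz : 0 < z) (hC : 0 ≤ C) (hCm : 2 * C * √((m : ℝ)⁻¹) ≤ 1)
    (hCe : C * ((m : ℝ)⁻¹ * (2 + z ^ m)) ≤ 1 / 1000) (hq : (m : ℝ)⁻¹ * z ^ m ≤ 1 / 1000)
    (hG : -Gd m M1 M2 s * (2 + z ^ m) ≤ 3 / 100) :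
    U m b M1 M2 s S + kap' m C s * sat m (S - s) +
      (m : ℝ)⁻¹ * cs s ^ (m - 2) * (gap m z / 50 - 2500 * (S - s) ^ 2) ≤
        P m b M1 M2 C s S z := by
  have hm' : (1000 : ℝ) ≤ m := by exact_mod_cast hm
  have hq0 := pow_pos hz m
  have he0 : 0 < (m : ℝ)⁻¹ := inv_pos.2 (by linarith)
  have he1 : (m : ℝ)⁻¹ ≤ 1 / 1000 := by
    rw [inv_le_comm₀ (by linarith) (by norm_num)]
    norm_num
    linarith
  have hT : (m : ℝ)⁻¹ * (2 + z ^ m) * exp (2 * (m : ℝ)⁻¹ * z ^ m) ≤ 1 / 100 := by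
    have h1 : exp (2 * (m : ℝ)⁻¹ * z ^ m) ≤ 2 := by
      refine (exp_bound_div_one_sub_of_interval (by positivity) (by linarith)).trans ?_
      rw [div_le_iff₀ (by linarith)]
      linarith
    calc _ ≤ (3 / 1000) * 2 := mul_le_mul (by linarith) h1 (exp_pos _).le (by norm_num)
      _ ≤ _ := by norm_num
  have hp : s * S ≤ 45 / 1000 := by nlinarith
  have hA := coA_bounds hc hs0 hs hS0 hS
  refine le_trans ?_ (le_P (by omega) hc.b_pos (by linarith [hc.M1_lo]) hz (by nlinarith)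
    (by nlinarith) (by linarith) hA.1 hT)
  have hc1 := one_le_cs hs0 hs
  obtain ⟨hk1, hk2⟩ := kap_sat'_le hs0 hs hC (by omega) hCm (S - s)
  obtain ⟨hd1, hd2⟩ := Gd_sub_coG hc hm hs0 hs hS0 hS
  have hdef : hd m M1 M2 s = (m : ℝ)⁻¹ * cs s ^ (m - 2) * Gd m M1 M2 s := rfl
  have hw0 : 0 < (m : ℝ)⁻¹ * cs s ^ (m - 2) := mul_pos he0 (pow_pos (by linarith) _)
  have hCe' : C * (m : ℝ)⁻¹ ≤ 1 / 1000 := le_trans (mul_le_mul_of_nonneg_left
    (le_mul_of_one_le_right he0.le (by linarith)) hC) hCe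
  have hN : ∀ a, |Gd m M1 M2 s - coG m M1 M2 s S| ≤ a →
      |coN m M1 M2 C s S| ≤ (m : ℝ)⁻¹ * cs s ^ (m - 2) * a + |kap m C s * sat' m (S - s)| := by
    intro a ha
    refine (abs_add_le _ _).trans (add_le_add ?_ le_rfl)
    rw [abs_mul, abs_of_pos hw0]
    exact mul_le_mul_of_nonneg_left ha hw0.le
  have hlin := linear_term_ge (m := m) hz hw0 (d := S - s) (N := coN m M1 M2 C s S)
    ((hN _ hd1).trans (by linarith [mul_le_mul_of_nonneg_left hCe' hw0.le]))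
    ((hN _ hd2).trans (by linarith))
  have hinv := inv_term_ge (m := m) hz hw0.le hk2 hG (c := 1 / 1000) (by linarith)
  rw [← hdef] at hinv
  have hsig : 231 / 1000 ≤ cs s - 2 * coA m M1 s S * (1 + 1 / 100) := by
    linarith [hA.2, hc.M1_hi]
  have := mul_le_mul_of_nonneg_left hsig (mul_nonneg hw0.le (gap_nonneg (m := m) hz))
  linarith

end Vale.Agent.P237.Petty.Centre
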