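import Vale.Agent.P237.Petty.Centre.Defs
import Vale.Agent.P237.Petty.Ident.Main
import Vale.Agent.P237.Petty.LargeN.Const
import Vale.Agent.P237.Petty.Threshold

/-!
# P237: the constants of the large dimensional linear inequality

`mu` exceeds its first order value by a small slack, which pays for strictness, and `s₀` is the
explicit threshold. Any bound of the linear functional along the transport by a positive multiple
of `1 - lam` gives the linear inequality and with it the step.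
-/

namespace Vale.Agent.P237.Petty.Centre

open MeasureTheory Set Real

/-- The chosen weight of the Fisher term. -/
noncomputable def muPick (p : ℕ) : ℝ := Ident.muMin p + 1 / ((p : ℝ) + 1) ^ 2

/-- The chosen weight of the axial term. -/
noncomputable def nuPick (p : ℕ) : ℝ := LargeN.bigL p - muPick p / 2

/-- The lower end of the admissible inscribed ellipses. -/
noncomputable def lowPick (p : ℕ) : ℝ := (2 / (5 * √((p : ℝ) + 2))) ^ (((p + 1 : ℕ) : ℝ)⁻¹)

theorem ratSq_eq (p : ℕ) : LargeN.ratSq p = Ident.b0 p ^ 2 := by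
  rw [LargeN.ratSq, Ident.b0, Ident.circ_eq_half, Ident.circ_eq_half]
  rw [mul_div_mul_left _ _ two_ne_zero]

theorem muMin_eq (p : ℕ) : Ident.muMin p = LargeN.muMin p := by
  rw [Ident.muMin, LargeN.muMin, LargeN.bigL, ratSq_eq]

theorem muPick_bounds {p : ℕ} (hp : 2000 ≤ p) :
    748 / 1000 ≤ muPick p ∧ muPick p ≤ 751 / 1000 := by
  have h : (2000 : ℝ) ≤ p := by exact_mod_cast hp
  have h1 := LargeN.muMin_le p
  have h2 := LargeN.le_muMin p (by omega)
  have h3 : 3 / ((p : ℝ) + 1) ≤ 2 / 1000 := by rw [div_le_iff₀ (by linarith)]; linarith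
  have h4 : 1 / ((p : ℝ) + 1) ^ 2 ≤ 1 / 1000 := by
    rw [div_le_iff₀ (by positivity)]; nlinarith
  have h5 : (0 : ℝ) ≤ 1 / ((p : ℝ) + 1) ^ 2 := by positivity
  rw [muPick, muMin_eq]
  constructor <;> linarith

theorem nuPick_bounds {p : ℕ} (hp : 2000 ≤ p) :
    123 / 1000 ≤ nuPick p ∧ nuPick p ≤ 127 / 1000 := by
  obtain ⟨h1, h2⟩ := muPick_bounds hp
  obtain ⟨h3, h4⟩ := LargeN.bigL_bounds p
  have h : (2000 : ℝ) ≤ p := by exact_mod_cast hp
  have h5 : 2 / ((p : ℝ) + 1) ≤ 1 / 1000 := by rw [div_le_iff₀ (by linarith)]; linarith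
  rw [nuPick]
  constructor <;> linarith

/-- The constants meet the conditions of the estimates. -/
theorem cnst_pick {p : ℕ} (hp : 2000 ≤ p) :
    Cnst (p + 1) (Ident.b0 p) (Ident.coefPi p (muPick p)) (Ident.coefJ p (nuPick p)) := by
  have h : (2000 : ℝ) ≤ p := by exact_mod_cast hp
  have hb := Ident.b0_pos p
  obtain ⟨hm1, hm2⟩ := muPick_bounds hp
  have hlo : ((p : ℝ) + 1) / ((p : ℝ) + 2) ≤ Ident.b0 p ^ 2 :=
    ratSq_eq p ▸ LargeN.crude_le_ratSq p
  have hhi : Ident.b0 p ^ 2 ≤ ((p : ℝ) + 2) / ((p : ℝ) + 3) :=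
    ratSq_eq p ▸ LargeN.ratSq_le_crude p
  have hb1 : Ident.b0 p ≤ 1 := by
    have : ((p : ℝ) + 2) / ((p : ℝ) + 3) ≤ 1 := by rw [div_le_one (by linarith)]; linarith
    nlinarith
  have hb2 : 999 / 1000 ≤ Ident.b0 p := by
    have : (999 / 1000 : ℝ) ≤ ((p : ℝ) + 1) / ((p : ℝ) + 2) := by
      rw [le_div_iff₀ (by linarith)]; linarith
    nlinarith
  refine ⟨by omega, hb, ?_, ?_, ?_, ?_, ?_⟩
  · push_cast
    rwa [show (p : ℝ) + 1 + 1 = (p : ℝ) + 2 by ring]
  · push_cast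
    rwa [show (p : ℝ) + 1 + 1 = (p : ℝ) + 2 by ring, show (p : ℝ) + 1 + 2 = (p : ℝ) + 3 by ring]
  · rw [Ident.coefPi, Ident.coefJ, nuPick, LargeN.bigL, ratSq_eq]
    push_cast
    rw [show (p : ℝ) + 1 + 3 = (p : ℝ) + 4 by ring, show (p : ℝ) + 1 - 1 = p by ring]
    field_simp
    ring
  · rw [Ident.coefPi, le_div_iff₀ (by positivity)]
    nlinarith
  · rw [Ident.coefPi, div_le_iff₀ (by positivity)]
    nlinarith

theorem slack_pos (p : ℕ) :
    0 < (muPick p - Ident.muMin p) * Ident.half p / ((p : ℝ) + 2) := by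
  rw [muPick, add_sub_cancel_left]
  have := Ident.half_pos p
  positivity

theorem lowPick_nonneg (p : ℕ) : 0 ≤ lowPick p := Real.rpow_nonneg (by positivity) _

theorem lowPick_pow (p : ℕ) : lowPick p ^ (p + 1) = 2 / (5 * √((p : ℝ) + 2)) :=
  Real.rpow_inv_natCast_pow (by positivity) (by omega)

/-- Admissible ellipses are not thin. -/
theorem kappa_le_pow {p : ℕ} {lam : ℝ} (h : lowPick p ≤ lam) :
    1 / 5 / √((p : ℝ) + 1) ≤ lam ^ (p + 1) := by
  refine le_trans ?_ (pow_le_pow_left₀ (lowPick_nonneg p) h _)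
  rw [lowPick_pow, div_div, div_le_div_iff₀ (by positivity) (by positivity)]
  have h2 : √((p : ℝ) + 2) ≤ 2 * √((p : ℝ) + 1) := by
    rw [sqrt_le_iff, mul_pow, sq_sqrt (by positivity)]
    exact ⟨by positivity, by linarith [Nat.cast_nonneg (α := ℝ) p]⟩
  linarith

/-- Admissible ellipses are almost round in large dimension. -/
theorem sq_ge_of_low : ∃ N : ℕ, ∀ p, N ≤ p → ∀ lam : ℝ, lowPick p ≤ lam → 9 / 10 ≤ lam ^ 2 := by
  refine ⟨10 ^ 6, fun p hp lam h => ?_⟩
  have hl := lowPick_nonneg p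
  have hp' : (1000000 : ℝ) ≤ p := by exact_mod_cast hp
  have h1 := kappa_le_pow (le_refl (lowPick p))
  by_contra hno
  rw [not_le] at hno
  have h2 : lowPick p ^ 2 < 9 / 10 := lt_of_le_of_lt (pow_le_pow_left₀ hl h 2) hno
  have h3 : (lowPick p ^ 2) ^ (p + 1) ≤ (9 / 10) ^ (p + 1) :=
    pow_le_pow_left₀ (sq_nonneg _) h2.le _
  rw [← pow_mul, mul_comm 2, pow_mul] at h3
  have h4 := (pow_le_pow_left₀ (by positivity) h1 2).trans h3
  rw [div_pow, sq_sqrt (by positivity)] at h4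
  -- exponential decay against a power
  have h5 : ((9 : ℝ) / 10) ^ (p + 1) * (1 + ((p + 1 : ℕ) : ℝ) * (1 / 20)) ^ 2 ≤ 1 := by
    have hB := one_add_mul_le_pow (show (-2 : ℝ) ≤ 1 / 20 by norm_num) (p + 1)
    calc _ ≤ ((9 : ℝ) / 10) ^ (p + 1) * ((1 + 1 / 20) ^ (p + 1)) ^ 2 :=
          mul_le_mul_of_nonneg_left (pow_le_pow_left₀ (by positivity) hB 2) (by positivity)
      _ = ((9 : ℝ) / 10 * (1 + 1 / 20) ^ 2) ^ (p + 1) := by
          rw [mul_pow, ← pow_mul, ← pow_mul, mul_comm (p + 1) 2]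
      _ ≤ 1 := pow_le_one₀ (by norm_num) (by norm_num)
  push_cast at h5
  have h6 := mul_le_mul_of_nonneg_right h4
    (show (0 : ℝ) ≤ (1 + ((p : ℝ) + 1) * (1 / 20)) ^ 2 by positivity)
  rw [div_mul_eq_mul_div, div_le_iff₀ (by positivity)] at h6
  have h7 : ((9 : ℝ) / 10) ^ (p + 1) * (1 + ((p : ℝ) + 1) * (1 / 20)) ^ 2 * ((p : ℝ) + 1) ≤
      1 * ((p : ℝ) + 1) := mul_le_mul_of_nonneg_right h5 (by positivity)
  nlinarith

/-- A bound along the transport gives the linear inequality. -/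
theorem linearLemma_of_bound {p : ℕ} {mu nu s₀ δ : ℝ} (hδ : 0 < δ)
    (h : ∀ (g σ : ℝ → ℝ) (lam : ℝ), Regular g → Transport p g σ → 0 < lam → lam ≤ 1 → s₀ ≤ lam →
      (∀ t ∈ Icc (-1 : ℝ) 1, lam * √(1 - t ^ 2) ≤ g t) →
      δ * (1 - lam) ≤ Ident.half p / ((p : ℝ) + 1) * linearForm p mu nu g lam) :
    LinearLemma p mu nu s₀ := by
  intro g lam hconc hcont heven hvol hl0 hl1 hs0 hge
  have hg : Regular g := ⟨hconc, hcont, heven,
    fun t ht => (mul_nonneg hl0.le (sqrt_nonneg _)).trans (hge t ht), by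
      have := hge 0 (by norm_num)
      norm_num at this
      linarith⟩
  obtain ⟨σ, hσ⟩ := Ident.exists_transport_of_circ hg p hvol
  have hb := h g σ lam hg hσ hl0 hl1 hs0 hge
  have hpos : 0 < Ident.half p / ((p : ℝ) + 1) := by
    have := Ident.half_pos p
    positivity
  refine ⟨nonneg_of_mul_nonneg_right ((mul_nonneg hδ.le (sub_nonneg.2 hl1)).trans hb) hpos,
    fun h0 => ?_⟩
  rw [h0, mul_zero] at hb
  exact le_antisymm hl1 (by linarith [nonpos_of_mul_nonpos_right hb hδ])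

/-- Such a bound gives the step in dimension `p + 2`. -/
theorem stepHolds_of_bound {p : ℕ} (hp : 2000 ≤ p) {δ : ℝ} (hδ : 0 < δ)
    (h : ∀ (g σ : ℝ → ℝ) (lam : ℝ), Regular g → Transport p g σ → 0 < lam → lam ≤ 1 →
      lowPick p ≤ lam → (∀ t ∈ Icc (-1 : ℝ) 1, lam * √(1 - t ^ 2) ≤ g t) →
      δ * (1 - lam) ≤ Ident.half p / ((p : ℝ) + 1) * linearForm p (muPick p) (nuPick p) g lam) :
    StepHolds.{0} p :=
  stepHolds_of_linear (by linarith [(muPick_bounds hp).1]) (by linarith [(nuPick_bounds hp).1])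
    (lowPick_nonneg p) (linearLemma_of_bound hδ h)
    (LargeN.threshold_le (lowPick_nonneg p) (lowPick_pow p).le)

end Vale.Agent.P237.Petty.Centre
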