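import Vale.Agent.P237.Petty.Centre.Decomp
import Mathlib.Analysis.SpecialFunctions.Sqrt

/-!
# P237: the derivative of `U` in the transported variable

`K` is the derivative of `U` in `S`. It vanishes on the diagonal.
-/

namespace Vale.Agent.P237.Petty.Centre

/-- The derivative of `fW`. -/
noncomputable def fW' (m : ℕ) (b x : ℝ) : ℝ :=
  -(((m : ℝ) - 1) / (4 * b ^ 3) * (x * cs x ^ (m - 4) *
    (((m : ℝ) - 2) * (cs x - b) ^ 2 * (cs x + 2 * b) + 3 * cs x * (cs x ^ 2 - b ^ 2))))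

/-- The derivative of `U` in `S`. -/
noncomputable def K (m : ℕ) (b M1 M2 s x : ℝ) : ℝ :=
  cs s ^ (m - 2) * R0' m M1 M2 s x + hd' m M1 M2 s - 2 * (m : ℝ)⁻¹ * cs s * fW' m b x -
    2 * (1 - (m : ℝ)⁻¹) * (s / cs s) * fW m b x

variable {m : ℕ} {b M1 M2 C s S x : ℝ}

theorem cs_sq (h : s ^ 2 ≤ 1) : cs s ^ 2 = 1 - s ^ 2 := Real.sq_sqrt (by linarith)

theorem cs_continuous : Continuous cs := by
  unfold cs
  fun_prop

theorem fW_continuous : Continuous (fW m b) := by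
  unfold fW wPoly cs
  fun_prop

theorem W0_continuous : Continuous (W0 m b) := cs_continuous.mul fW_continuous

theorem hasDerivAt_cs (h : x ^ 2 < 1) : HasDerivAt cs (-x / cs x) x := by
  have h1 : HasDerivAt (fun y : ℝ => 1 - y ^ 2) (-2 * x) x := by
    simpa using (hasDerivAt_pow 2 x).const_sub 1
  have h0 : (1 : ℝ) - x ^ 2 ≠ 0 := by linarith
  refine (h1.sqrt h0).congr_deriv ?_
  unfold cs
  field_simp

theorem hasDerivAt_cs_pow (h : x ^ 2 < 1) (k : ℕ) :
    HasDerivAt (fun y => cs y ^ (k + 2)) (-(((k + 2 : ℕ) : ℝ) * x * cs x ^ k)) x := by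
  refine ((hasDerivAt_cs h).pow (k + 2)).congr_deriv ?_
  have := (cs_pos h).ne'
  rw [show k + 2 - 1 = k + 1 from rfl, pow_succ]
  field_simp

theorem hasDerivAt_fW (hm : 4 ≤ m) (h : x ^ 2 < 1) : HasDerivAt (fW m b) (fW' m b x) x := by
  obtain ⟨k, rfl⟩ : ∃ k, m = k + 4 := ⟨m - 4, by omega⟩
  have hc := hasDerivAt_cs h
  have h1 := ((((hasDerivAt_cs_pow h k).mul ((hc.sub_const b).pow 2)).mul
    (hc.add_const (2 * b)))).const_mul ((((k + 4 : ℕ) : ℝ) - 1) / (4 * b ^ 3))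
  refine (h1.congr_of_eventuallyEq (Filter.Eventually.of_forall fun y => ?_)).congr_deriv ?_
  · simp [fW, wPoly]
  · have := (cs_pos h).ne'
    simp only [fW', Nat.add_sub_cancel, Pi.mul_apply, Pi.pow_apply, Nat.reduceSub, pow_one]
    push_cast
    field_simp
    ring

theorem hasDerivAt_R0 : HasDerivAt (R0 m M1 M2 s) (R0' m M1 M2 s S) S := by
  have h0 := hasDerivAt_id S
  have hq := hasDerivAt_pow 2 S
  have hA : HasDerivAt (fun y => coA m M1 s y)
      (M1 * (-(s ^ 2 * (2 * S)) - ((m : ℝ) - 2)⁻¹ * (-(4 * s) + 3 * (2 * (s * S) * s)))) S := by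
    unfold coA
    refine (((((hq.const_mul (s ^ 2)).const_sub 1).sub
      (((((h0.const_mul s).const_mul 4).const_sub 1).add
        (((h0.const_mul s).pow 2).const_mul 3)).const_mul (((m : ℝ) - 2)⁻¹))).const_mul M1)).congr_deriv ?_
    simp
  unfold R0
  refine ((((hA.const_sub (cs s)).sub_const _).add
    (((h0.const_mul s).const_sub 1).const_mul (2 * (m : ℝ)⁻¹ * M2 * (1 - s ^ 2)))).sub
    ((((h0.const_mul s).const_sub 1).const_mul (2 * ((m : ℝ) - 2)⁻¹ * M1)).mul hq)).congr_deriv ?_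
  simp [R0']
  ring

theorem hasDerivAt_U (hm : 4 ≤ m) (hS : S ^ 2 < 1) :
    HasDerivAt (fun y => U m b M1 M2 s y) (K m b M1 M2 s S) S := by
  unfold U
  refine ((((hasDerivAt_R0.sub_const _).const_mul (cs s ^ (m - 2))).add
    (((hasDerivAt_id S).sub_const s).const_mul (hd' m M1 M2 s))).sub
    (((hasDerivAt_fW hm hS).sub_const _).const_mul (2 * (m : ℝ)⁻¹ * cs s))).sub
    ((intervalIntegral.integral_hasDerivAt_right
      (fW_continuous.intervalIntegrable _ _) (fW_continuous.stronglyMeasurableAtFilter _ _)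
      fW_continuous.continuousAt).const_mul (2 * (1 - (m : ℝ)⁻¹) * (s / cs s))) |>.congr_deriv ?_
  simp [K]

theorem U_self : U m b M1 M2 s s = 0 := by simp [U]

/-- The derivative vanishes on the diagonal. -/
theorem K_self (hc : Cnst m b M1 M2) (hs : s ^ 2 < 1) : K m b M1 M2 s s = 0 := by
  obtain ⟨k, rfl⟩ : ∃ k, m = k + 4 := ⟨m - 4, by have := hc.large; omega⟩
  have hb := hc.b_pos.ne'
  have hsum := hc.sum_eq
  have hs2 : s ^ 2 = 1 - cs s ^ 2 := by linarith [cs_sq hs.le]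
  have hc0 := (cs_pos hs).ne'
  have hM2 : M2 = (((k + 4 : ℕ) : ℝ) - 1) / (2 * (((k + 4 : ℕ) : ℝ) + 3) * b ^ 3) - M1 := by
    linarith
  subst hM2
  simp only [K, R0', hd', Gd, fW', fW, wPoly, Nat.add_sub_cancel,
    show k + 4 - 2 = k + 2 from rfl, pow_add (cs s) k 2]
  rw [hs2]
  push_cast
  have h3 : (k : ℝ) + 4 + 3 ≠ 0 := by positivity
  have h2 : (k : ℝ) + 4 - 2 ≠ 0 := by
    have : (0 : ℝ) ≤ k := by positivity
    linarith
  field_simp
  ring_nf

end Vale.Agent.P237.Petty.Centre
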